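import Mathlib
import Crest.Prelude.Def_QuadraticTransport

set_option autoImplicit false
set_option linter.unusedSectionVars false

namespace Crest.Agent.R82

open Finset Real MeasureTheory ProbabilityTheory Filter Topology Set
open scoped RealInnerProductSpace ENNReal unitInterval
open Crest.AnalysisR.OT

theorem continuous_cdf (ν : Measure ℝ) [IsProbabilityMeasure ν] (h : ∀ c, ν {c} = 0) :
    Continuous (cdf ν) := by
  rw [continuous_iff_continuousAt]
  intro a
  have h1 := (cdf ν).measure_singleton a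
  rw [measure_cdf, h a] at h1
  have h2 : cdf ν a - Function.leftLim (cdf ν) a ≤ 0 := ENNReal.ofReal_eq_zero.mp h1.symm
  have h3 : Function.leftLim (cdf ν) a ≤ cdf ν a := (monotone_cdf ν).leftLim_le le_rfl
  rw [(monotone_cdf ν).continuousAt_iff_leftLim_eq_rightLim, (cdf ν).rightLim_eq]
  linarith

theorem measure_cdf_le (ν : Measure ℝ) [IsProbabilityMeasure ν] (h : ∀ c, ν {c} = 0)
    {t : ℝ} (h0 : 0 ≤ t) (h1 : t ≤ 1) : ν {x | cdf ν x ≤ t} = ENNReal.ofReal t := by
  have hc := continuous_cdf ν h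
  rcases h1.eq_or_lt with rfl | h1
  · have : {x | cdf ν x ≤ 1} = Set.univ := by ext x; simp [cdf_le_one]
    rw [this]; simp
  rcases Set.eq_empty_or_nonempty {x | cdf ν x ≤ t} with he | hne
  · have : t ≤ 0 := by
      refine ge_of_tendsto (tendsto_cdf_atBot ν) (Eventually.of_forall fun x => ?_)
      by_contra hx
      have : x ∈ {x | cdf ν x ≤ t} := (not_le.mp hx).le
      rw [he] at this
      exact this
    rw [he, ENNReal.ofReal_of_nonpos this, measure_empty]
  have hbdd : BddAbove {x | cdf ν x ≤ t} := by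
    obtain ⟨b, hb⟩ := eventually_atTop.mp ((tendsto_cdf_atTop ν).eventually (lt_mem_nhds h1))
    refine ⟨b, fun x hx => ?_⟩
    by_contra hxb
    exact absurd (hb x (not_le.mp hxb).le) (not_lt.mpr hx)
  set s := sSup {x | cdf ν x ≤ t} with hs
  have hmem : s ∈ {x | cdf ν x ≤ t} := (isClosed_le hc continuous_const).csSup_mem hne hbdd
  have hset : {x | cdf ν x ≤ t} = Set.Iic s := by
    ext x
    exact ⟨fun hx => le_csSup hbdd hx, fun hx => (monotone_cdf ν hx).trans hmem⟩
  have hge : t ≤ cdf ν s := by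
    refine ge_of_tendsto (x := 𝓝[>] s) (hc.continuousAt.tendsto.mono_left nhdsWithin_le_nhds) ?_
    filter_upwards [self_mem_nhdsWithin] with x hx
    by_contra hxt
    have : x ∈ {x | cdf ν x ≤ t} := (not_le.mp hxt).le
    rw [hset] at this
    exact absurd (show s < x from hx) (not_lt.mpr (show x ≤ s from this))
  rw [hset, ← ofReal_cdf, le_antisymm hmem hge]

theorem exists_map_unit (ν : Measure ℝ) [IsProbabilityMeasure ν] (h : ∀ c, ν {c} = 0) :
    ∃ U : ℝ → I, Measurable U ∧ ν.map U = volume := by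
  let U : ℝ → I := fun x => ⟨cdf ν x, cdf_nonneg ν x, cdf_le_one ν x⟩
  have hU : Measurable U := (continuous_cdf ν h).measurable.subtype_mk
  refine ⟨U, hU, Measure.ext_of_Iic _ _ fun t => ?_⟩
  rw [Measure.map_apply hU measurableSet_Iic, unitInterval.volume_Iic,
    ← measure_cdf_le ν h t.2.1 t.2.2]
  rfl

theorem exists_map_of_mass_eq {X Y : Type*} [MeasurableSpace X] [MeasurableSpace Y] [Nonempty Y]
    [StandardBorelSpace Y] (ρ : Measure X) (κ : Measure Y) [IsFiniteMeasure ρ]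
    (hm : ρ univ = κ univ) (l : X → ℝ) (hl : Measurable l) (h0 : ∀ c, ρ (l ⁻¹' {c}) = 0) :
    ∃ S : X → Y, Measurable S ∧ ρ.map S = κ := by
  by_cases hz : ρ univ = 0
  · obtain ⟨y⟩ := ‹Nonempty Y›
    refine ⟨fun _ => y, measurable_const, ?_⟩
    have hκ : κ = 0 := Measure.measure_univ_eq_zero.mp (hm ▸ hz)
    rw [Measure.measure_univ_eq_zero.mp hz, hκ]
    simp
  have hne : ρ univ ≠ ⊤ := measure_ne_top _ _
  let ρ1 : Measure X := (ρ univ)⁻¹ • ρ
  let κ1 : Measure Y := (ρ univ)⁻¹ • κ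
  have : IsProbabilityMeasure ρ1 := ⟨by simp [ρ1, ENNReal.inv_mul_cancel hz hne]⟩
  have : IsProbabilityMeasure κ1 := ⟨by simp [κ1, ← hm, ENNReal.inv_mul_cancel hz hne]⟩
  have : IsProbabilityMeasure (ρ1.map l) := Measure.isProbabilityMeasure_map hl.aemeasurable
  obtain ⟨U, hU, hUm⟩ := exists_map_unit (ρ1.map l) (fun c => by
    rw [Measure.map_apply hl (measurableSet_singleton c)]
    simp [ρ1, h0 c])
  obtain ⟨f, hf, hfm⟩ := Measure.exists_measurable_map_eq κ1
  refine ⟨f ∘ U ∘ l, hf.comp (hU.comp hl), ?_⟩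
  have h1 : ρ1.map (f ∘ U ∘ l) = κ1 := by
    rw [← Measure.map_map hf (hU.comp hl), ← Measure.map_map hU hl, hUm, hfm]
  have h2 : ρ = (ρ univ) • ρ1 := by
    simp only [ρ1, smul_smul, ENNReal.mul_inv_cancel hz hne, one_smul]
  have h3 : κ = (ρ univ) • κ1 := by
    simp only [κ1, smul_smul, ENNReal.mul_inv_cancel hz hne, one_smul]
  rw [h3, ← h1, ← Measure.map_smul, ← h2]

theorem exists_net {X : Type*} [MetricSpace X] [MeasurableSpace X] [OpensMeasurableSpace X]
    [BorelSpace X] {K : Set X} (hK : IsCompact K) (hne : K.Nonempty) {δ : ℝ} (hδ : 0 < δ) :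
    ∃ (t : Finset X) (P : X → X), Measurable P ∧ (∀ x, P x ∈ t) ∧ (∀ c ∈ t, c ∈ K) ∧
      ∀ x ∈ K, dist x (P x) ≤ δ := by
  classical
  obtain ⟨s, hsK, hsf, hcov⟩ := hK.finite_cover_balls hδ
  have hsne : s.Nonempty := by
    obtain ⟨x, hx⟩ := hne
    obtain ⟨c, hc, -⟩ := Set.mem_iUnion₂.mp (hcov hx)
    exact ⟨c, hc⟩
  obtain ⟨e, he⟩ := hsf.countable.exists_eq_range hsne
  have hidx : ∀ c ∈ s, ∃ k, e k = c := fun c hc => by rw [he] at hc; exact hc
  choose! idx hidx using hidx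
  let N := hsf.toFinset.sup idx
  refine ⟨hsf.toFinset, SimpleFunc.nearestPt e N, (SimpleFunc.nearestPt e N).measurable, ?_,
    fun c hc => hsK (hsf.mem_toFinset.mp hc), ?_⟩
  · intro x
    rw [hsf.mem_toFinset, he]
    exact ⟨_, rfl⟩
  · intro x hx
    obtain ⟨c, hc, hxc⟩ := Set.mem_iUnion₂.mp (hcov hx)
    have h1 := SimpleFunc.edist_nearestPt_le e x (k := idx c) (N := N)
      (Finset.le_sup (f := idx) (hsf.mem_toFinset.mpr hc))
    rw [hidx c hc, edist_dist, edist_dist, ENNReal.ofReal_le_ofReal_iff dist_nonneg] at h1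
    rw [dist_comm]
    refine h1.trans ?_
    rw [dist_comm]
    exact (Metric.mem_ball.mp hxc).le

theorem sum_restrict_fiber {X Y : Type*} [MeasurableSpace X] [MeasurableSpace Y]
    [MeasurableSingletonClass Y] (ρ : Measure X) (t : Finset Y) (P : X → Y) (hP : Measurable P)
    (ht : ∀ x, P x ∈ t) : ∑ c ∈ t, ρ.restrict (P ⁻¹' {c}) = ρ := by
  ext s hs
  rw [Measure.finsetSum_apply]
  simp only [Measure.restrict_apply hs]
  rw [← measure_biUnion_finset]
  · congr 1
    ext x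
    simp only [Set.mem_iUnion, Set.mem_inter_iff, Set.mem_preimage, Set.mem_singleton_iff]
    exact ⟨fun ⟨_, _, h, _⟩ => h, fun h => ⟨P x, ht x, h, rfl⟩⟩
  · intro a _ b _ hab
    refine Set.disjoint_left.mpr fun x hx hx' => hab ?_
    exact hx.2.symm.trans hx'.2
  · intro c _
    exact hs.inter (hP (measurableSet_singleton c))

variable {E : Type*} [NormedAddCommGroup E] [InnerProductSpace ℝ E]
  [MeasurableSpace E] [BorelSpace E] [SecondCountableTopology E]

theorem integrable_inner_of_bdd {X : Type*} [MeasurableSpace X] {ρ : Measure X}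
    [IsFiniteMeasure ρ] {f g : X → E} (hf : Measurable f) (hg : Measurable g) {A B : ℝ}
    (hA : ∀ᵐ x ∂ρ, ‖f x‖ ≤ A) (hB : ∀ᵐ x ∂ρ, ‖g x‖ ≤ B) :
    Integrable (fun x => ⟪f x, g x⟫) ρ := by
  refine Integrable.of_bound (hf.inner hg).aestronglyMeasurable (A * B) ?_
  filter_upwards [hA, hB] with x h1 h2
  exact (norm_inner_le_norm _ _).trans (mul_le_mul h1 h2 (norm_nonneg _) ((norm_nonneg _).trans h1))

theorem lintegral_enorm_sq {X : Type*} [MeasurableSpace X] {ρ : Measure X}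
    [IsFiniteMeasure ρ] {f : X → E} (hf : Measurable f) {A : ℝ} (hA : ∀ᵐ x ∂ρ, ‖f x‖ ≤ A) :
    ∫⁻ x, ‖f x‖ₑ ^ 2 ∂ρ = ENNReal.ofReal (∫ x, ‖f x‖ ^ 2 ∂ρ) := by
  rw [ofReal_integral_eq_lintegral_ofReal]
  · congr 1; funext x
    rw [ENNReal.ofReal_pow (norm_nonneg _), ofReal_norm]
  · refine Integrable.of_bound (hf.norm.pow_const 2).aestronglyMeasurable (A ^ 2) ?_
    filter_upwards [hA] with x h1
    rw [Real.norm_eq_abs, abs_of_nonneg (sq_nonneg _)]
    exact pow_le_pow_left₀ (norm_nonneg _) h1 2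
  · exact Eventually.of_forall fun x => sq_nonneg _

theorem ae_norm_le_of_map {X : Type*} [MeasurableSpace X] {ρ : Measure X} {μ : Measure E}
    {S : X → E} (hS : Measurable S) (h : ρ.map S = μ) {L : ℝ} (hL : ∀ᵐ y ∂μ, ‖y‖ ≤ L) :
    ∀ᵐ x ∂ρ, ‖S x‖ ≤ L := by
  rw [← h] at hL
  exact ae_of_ae_map hS.aemeasurable hL

theorem opt_real {ρ μ : Measure E} [IsProbabilityMeasure ρ] {R L : ℝ} (hR : ∀ᵐ x ∂ρ, ‖x‖ ≤ R)
    (hL : ∀ᵐ y ∂μ, ‖y‖ ≤ L) {T S : E → E} (hT : IsOptimalMap ρ μ T) (hS : Measurable S)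
    (hSm : ρ.map S = μ) : ∫ x, ⟪x, S x⟫ ∂ρ ≤ ∫ x, ⟪x, T x⟫ ∂ρ := by
  obtain ⟨hTm, hTμ, hopt⟩ := hT
  have key : ∀ U : E → E, Measurable U → ρ.map U = μ →
      ∫⁻ x, ‖x - U x‖ₑ ^ 2 ∂ρ = ENNReal.ofReal (∫ x, ‖x - U x‖ ^ 2 ∂ρ) ∧
      ∫ x, ‖x - U x‖ ^ 2 ∂ρ = ∫ x, ‖x‖ ^ 2 ∂ρ - 2 * ∫ x, ⟪x, U x⟫ ∂ρ + ∫ y, ‖y‖ ^ 2 ∂μ := by
    intro U hU hUm
    have hUL := ae_norm_le_of_map hU hUm hL
    constructor
    · refine lintegral_enorm_sq (measurable_id.sub hU) (A := R + L) ?_
      filter_upwards [hR, hUL] with x h1 h2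
      exact (norm_sub_le _ _).trans (add_le_add h1 h2)
    · have i1 := integrable_inner_of_bdd measurable_id measurable_id hR hR
      have i2 := integrable_inner_of_bdd measurable_id hU hR hUL
      have i3 := integrable_inner_of_bdd hU hU hUL hUL
      simp only [id, real_inner_self_eq_norm_sq] at i1 i2 i3
      have e : ∫ y, ‖y‖ ^ 2 ∂μ = ∫ x, ‖U x‖ ^ 2 ∂ρ := by
        rw [← hUm, integral_map hU.aemeasurable (by fun_prop)]
      simp only [norm_sub_sq_real]
      have i4 : Integrable (fun x => ‖x‖ ^ 2 - 2 * ⟪x, U x⟫) ρ := i1.sub (i2.const_mul 2)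
      rw [e, integral_add i4 i3, integral_sub i1 (i2.const_mul 2),
        integral_const_mul]
  obtain ⟨a1, a2⟩ := key T hTm hTμ
  obtain ⟨b1, b2⟩ := key S hS hSm
  have := hopt S hS hSm
  rw [a1, b1, ENNReal.ofReal_le_ofReal_iff (integral_nonneg fun x => sq_nonneg _), a2, b2] at this
  linarith

/-- A Monge-optimal map beats every coupling. -/
theorem monge_kantorovich [CompleteSpace E] {ρ μ : Measure E} [IsProbabilityMeasure ρ]
    {K : Set E} (hK : IsCompact K)
    (hKae : ∀ᵐ x ∂ρ, x ∈ K) {R L : ℝ} (hR : ∀ x ∈ K, ‖x‖ ≤ R)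
    (hL : ∀ᵐ y ∂μ, ‖y‖ ≤ L) (hL0 : 0 < L) (l : E → ℝ) (hl : Measurable l)
    (h0 : ∀ c, ρ (l ⁻¹' {c}) = 0)
    {T : E → E} (hT : IsOptimalMap ρ μ T) (Γ : Measure (E × E)) (hΓ : IsPairCoupling ρ μ Γ) :
    ∫ p, ⟪p.1, p.2⟫ ∂Γ ≤ ∫ x, ⟪x, T x⟫ ∂ρ := by
  classical
  obtain ⟨hΓ1, hΓ2⟩ := hΓ
  have hRae : ∀ᵐ x ∂ρ, ‖x‖ ≤ R := hKae.mono hR
  have hne : K.Nonempty := hKae.exists
  have : IsProbabilityMeasure Γ := by
    constructor
    have := congrArg (fun m : Measure E => m univ) hΓ1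
    simpa [Measure.map_apply measurable_fst MeasurableSet.univ] using this
  have hΓK : ∀ᵐ p ∂Γ, p.1 ∈ K := by
    rw [← hΓ1] at hKae
    exact ae_of_ae_map measurable_fst.aemeasurable hKae
  have hΓL : ∀ᵐ p ∂Γ, ‖p.2‖ ≤ L := ae_norm_le_of_map measurable_snd hΓ2 hL
  refine le_of_forall_pos_le_add fun η hη => ?_
  obtain ⟨t, P, hP, hPt, htK, hPd⟩ := exists_net hK hne (δ := η / (2 * L)) (by positivity)
  have hPR : ∀ x, ‖P x‖ ≤ R := fun x => hR _ (htK _ (hPt x))
  have hmeas : ∀ c, MeasurableSet (P ⁻¹' {c}) := fun c => hP (measurableSet_singleton c)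
  have hP1 : Measurable fun p : E × E => P p.1 := hP.comp measurable_fst
  have hex : ∀ c, ∃ S : E → E, Measurable S ∧ (ρ.restrict (P ⁻¹' {c})).map S =
      (Γ.restrict ((fun p : E × E => P p.1) ⁻¹' {c})).map Prod.snd := by
    intro c
    refine exists_map_of_mass_eq _ _ ?_ l hl fun a => ?_
    · rw [Measure.map_apply measurable_snd MeasurableSet.univ, Set.preimage_univ,
        Measure.restrict_apply_univ, Measure.restrict_apply_univ, ← hΓ1,
        Measure.map_apply measurable_fst (hmeas c)]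
      rfl
    · exact le_antisymm ((Measure.restrict_apply_le _ _).trans (h0 a).le) bot_le
  choose Sc hSc hScm using hex
  let S : E → E := fun x => ∑ c ∈ t, (P ⁻¹' {c}).indicator (Sc c) x
  have hS : Measurable S := Finset.measurable_sum _ fun c _ => (hSc c).indicator (hmeas c)
  have hSeq : ∀ x, S x = Sc (P x) x := by
    intro x
    simp only [S]
    rw [Finset.sum_eq_single (P x)]
    · exact Set.indicator_of_mem (by simp) _
    · intro c _ hc
      exact Set.indicator_of_notMem (by simpa using Ne.symm hc) _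
    · intro h; exact absurd (hPt x) h
  have hjoint : ρ.map (fun x => (P x, S x)) = Γ.map (fun p => (P p.1, p.2)) := by
    conv_lhs => rw [← sum_restrict_fiber ρ t P hP hPt]
    conv_rhs => rw [← sum_restrict_fiber Γ t (fun p : E × E => P p.1) hP1 (fun p => hPt p.1)]
    rw [Measure.map_finset_sum (hP.prodMk hS).aemeasurable,
      Measure.map_finset_sum (hP1.prodMk measurable_snd).aemeasurable]
    refine Finset.sum_congr rfl fun c _ => ?_
    have e1 : (ρ.restrict (P ⁻¹' {c})).map (fun x => (P x, S x)) =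
        (ρ.restrict (P ⁻¹' {c})).map (Prod.mk c ∘ Sc c) := by
      refine Measure.map_congr ((ae_restrict_mem (hmeas c)).mono fun x hx => ?_)
      have hx' : P x = c := hx
      simp [hSeq, hx']
    have e2 : (Γ.restrict ((fun p : E × E => P p.1) ⁻¹' {c})).map (fun p => (P p.1, p.2)) =
        (Γ.restrict ((fun p : E × E => P p.1) ⁻¹' {c})).map (Prod.mk c ∘ Prod.snd) := by
      refine Measure.map_congr ((ae_restrict_mem (hP1 (measurableSet_singleton c))).mono
        fun x hx => ?_)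
      have hx' : P x.1 = c := hx
      simp [hx']
    rw [e1, e2, ← Measure.map_map measurable_prodMk_left (hSc c), hScm,
      Measure.map_map measurable_prodMk_left measurable_snd]
  have hSμ : ρ.map S = μ := by
    have := congrArg (Measure.map Prod.snd) hjoint
    rw [Measure.map_map measurable_snd (hP.prodMk hS),
      Measure.map_map measurable_snd (hP1.prodMk measurable_snd)] at this
    exact this.trans hΓ2
  have hint : ∫ x, ⟪P x, S x⟫ ∂ρ = ∫ p, ⟪P p.1, p.2⟫ ∂Γ := by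
    have h1 := integral_map (μ := ρ) (hP.prodMk hS).aemeasurable
      (f := fun q : E × E => ⟪q.1, q.2⟫) (by fun_prop)
    have h2 := integral_map (μ := Γ) (hP1.prodMk measurable_snd).aemeasurable
      (f := fun q : E × E => ⟪q.1, q.2⟫) (by fun_prop)
    rw [← h1, ← h2, hjoint]
  have hSL := ae_norm_le_of_map hS hSμ hL
  have hopt := opt_real hRae hL hT hS hSμ
  have close : ∀ x ∈ K, ∀ y : E, ‖y‖ ≤ L → |⟪x, y⟫ - ⟪P x, y⟫| ≤ η / 2 := by
    intro x hx y hy
    rw [← inner_sub_left]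
    refine (abs_real_inner_le_norm _ _).trans ?_
    have := hPd x hx
    rw [dist_eq_norm] at this
    calc ‖x - P x‖ * ‖y‖ ≤ η / (2 * L) * L := mul_le_mul this hy (norm_nonneg _) (by positivity)
      _ = η / 2 := by field_simp
  have i1 : ∫ p, ⟪p.1, p.2⟫ ∂Γ ≤ ∫ p, ⟪P p.1, p.2⟫ ∂Γ + η / 2 := by
    have j1 := integrable_inner_of_bdd measurable_fst measurable_snd (hΓK.mono fun p => hR p.1) hΓL
    have j2 := integrable_inner_of_bdd hP1 measurable_snd
      (Eventually.of_forall fun p => hPR p.1) hΓL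
    have := integral_mono_ae j1 (j2.add (integrable_const (η / 2))) (by
      filter_upwards [hΓK, hΓL] with p h1 h2
      have := close p.1 h1 p.2 h2
      simp only [Pi.add_apply]
      linarith [le_abs_self (⟪p.1, p.2⟫ - ⟪P p.1, p.2⟫)])
    simp only [Pi.add_apply] at this
    rw [integral_add j2 (integrable_const _)] at this
    simpa using this
  have i2 : ∫ x, ⟪P x, S x⟫ ∂ρ ≤ ∫ x, ⟪x, S x⟫ ∂ρ + η / 2 := by
    have j1 := integrable_inner_of_bdd hP hS (Eventually.of_forall hPR) hSL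
    have j2 := integrable_inner_of_bdd measurable_id hS hRae hSL
    have := integral_mono_ae j1 (j2.add (integrable_const (η / 2))) (by
      filter_upwards [hKae, hSL] with x h1 h2
      have := close x h1 (S x) h2
      simp only [Pi.add_apply, id]
      linarith [neg_abs_le (⟪x, S x⟫ - ⟪P x, S x⟫)])
    simp only [Pi.add_apply] at this
    rw [integral_add j2 (integrable_const _)] at this
    simpa using this
  linarith

end Crest.Agent.R82
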