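import Mathlib

set_option autoImplicit false
set_option linter.unusedSectionVars false

namespace Crest.Agent.R82

open Finset Real MeasureTheory
open scoped RealInnerProductSpace

variable {E : Type*} [NormedAddCommGroup E] [InnerProductSpace ℝ E]
  [MeasurableSpace E] [BorelSpace E]

/-- A probability measure carried by a compact set, with a Prekopa-Leindler inequality. -/
structure Good (ρ : Measure E) (K : Set E) (R : ℝ) : Prop where
  prob : IsProbabilityMeasure ρ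
  compact : IsCompact K
  ae : ∀ᵐ x ∂ρ, x ∈ K
  R_pos : 0 < R
  norm_le : ∀ x ∈ K, ‖x‖ ≤ R
  pl : ∀ f g h : E → ℝ, Continuous f → Continuous g → Continuous h → (∀ x, 0 ≤ f x) →
    (∀ x, 0 ≤ g x) → (∀ x, 0 ≤ h x) →
    (∀ x ∈ K, ∀ y ∈ K, f x * g y ≤ h ((1 / 2 : ℝ) • (x + y)) ^ 2) →
    (∫ x, f x ∂ρ) * (∫ x, g x ∂ρ) ≤ (∫ x, h x ∂ρ) ^ 2

variable {ρ : Measure E} {K : Set E} {R : ℝ}

theorem Good.integrable (hρ : Good ρ K R) {f : E → ℝ} (hf : Continuous f) : Integrable f ρ := by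
  haveI := hρ.prob
  have h1 : IntegrableOn f K ρ := hf.continuousOn.integrableOn_compact' hρ.compact
    hρ.compact.isClosed.measurableSet
  have h2 : ρ.restrict K = ρ := Measure.restrict_eq_self_of_ae_mem hρ.ae
  rwa [IntegrableOn, h2] at h1

theorem Good.integral_mono (hρ : Good ρ K R) {f g : E → ℝ} (hf : Continuous f) (hg : Continuous g)
    (h : ∀ x ∈ K, f x ≤ g x) : ∫ x, f x ∂ρ ≤ ∫ x, g x ∂ρ :=
  integral_mono_ae (hρ.integrable hf) (hρ.integrable hg) (hρ.ae.mono fun x hx => h x hx)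

theorem Good.integral_pos (hρ : Good ρ K R) {f : E → ℝ} (hf : Continuous f) (h : ∀ x, 0 < f x) :
    0 < ∫ x, f x ∂ρ := by
  haveI := hρ.prob
  rw [integral_pos_iff_support_of_nonneg (fun x => (h x).le) (hρ.integrable hf)]
  have : Function.support f = Set.univ := by
    ext x; simp [(h x).ne']
  rw [this]; simp

theorem norm_mid_sq (x y : E) :
    2 * ‖(1 / 2 : ℝ) • (x + y)‖ ^ 2 = ‖x‖ ^ 2 + ‖y‖ ^ 2 - ‖x - y‖ ^ 2 / 2 := by
  rw [norm_smul, mul_pow, norm_add_sq_real, norm_sub_sq_real]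
  norm_num
  ring

/-- The Gaussian weight. -/
noncomputable def wt (lam : ℝ) (x : E) : ℝ := exp (-(lam * ‖x‖ ^ 2))

theorem wt_pos (lam : ℝ) (x : E) : 0 < wt lam x := exp_pos _

theorem continuous_wt (lam : ℝ) : Continuous (wt lam : E → ℝ) := by
  unfold wt; fun_prop

/-- One-cell consequence of Prekopa-Leindler with a Gaussian weight. -/
theorem cell_bound (hρ : Good ρ K R) {θ θ' θ'' : E → ℝ} (c1 : Continuous θ) (c2 : Continuous θ')
    (c3 : Continuous θ'') (p1 : ∀ x, 0 < θ x) (p2 : ∀ x, 0 < θ' x) (p3 : ∀ x, 0 < θ'' x)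
    (hlc : ∀ x ∈ K, ∀ y ∈ K, θ x * θ' y ≤ θ'' ((1 / 2 : ℝ) • (x + y)) ^ 2)
    {lam : ℝ} (hlam : 0 < lam) {u : E → ℝ} (cu : Continuous u) {L : ℝ} (hL : 0 < L)
    (hu : ∀ x ∈ K, ∀ y ∈ K, |u x - u y| ≤ L * ‖x - y‖) :
    √((∫ x, θ x * wt lam x ∂ρ) * (∫ x, θ' x * wt lam x ∂ρ)) *
      ((∫ x, θ x * wt lam x * u x ∂ρ) / (∫ x, θ x * wt lam x ∂ρ) -
        (∫ x, θ' x * wt lam x * u x ∂ρ) / (∫ x, θ' x * wt lam x ∂ρ)) ^ 2 ≤
      4 * L ^ 2 / lam * ((∫ x, θ'' x * wt lam x ∂ρ) -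
        √((∫ x, θ x * wt lam x ∂ρ) * (∫ x, θ' x * wt lam x ∂ρ))) := by
  have cw := continuous_wt (E := E) lam
  set a := ∫ x, θ x * wt lam x ∂ρ with ha
  set b := ∫ x, θ' x * wt lam x ∂ρ with hb
  set c := ∫ x, θ'' x * wt lam x ∂ρ with hc
  have apos : 0 < a := hρ.integral_pos (by fun_prop) fun x => mul_pos (p1 x) (wt_pos _ _)
  have bpos : 0 < b := hρ.integral_pos (by fun_prop) fun x => mul_pos (p2 x) (wt_pos _ _)
  have cpos : 0 < c := hρ.integral_pos (by fun_prop) fun x => mul_pos (p3 x) (wt_pos _ _)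
  set uA := (∫ x, θ x * wt lam x * u x ∂ρ) / a with huA
  set uB := (∫ x, θ' x * wt lam x * u x ∂ρ) / b with huB
  set Δ := uA - uB with hΔ
  set s := lam * Δ / L ^ 2 with hs
  set q := lam * Δ ^ 2 / (4 * L ^ 2) with hq
  have key := hρ.pl (fun x => θ x * wt lam x * exp (s * (u x - uA)))
    (fun x => θ' x * wt lam x * exp (-(s * (u x - uB))))
    (fun x => θ'' x * wt lam x * exp (-q)) (by fun_prop) (by fun_prop) (by fun_prop)
    (fun x => (mul_pos (mul_pos (p1 x) (wt_pos _ _)) (exp_pos _)).le)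
    (fun x => (mul_pos (mul_pos (p2 x) (wt_pos _ _)) (exp_pos _)).le)
    (fun x => (mul_pos (mul_pos (p3 x) (wt_pos _ _)) (exp_pos _)).le) ?_
  · have hf : a ≤ ∫ x, θ x * wt lam x * exp (s * (u x - uA)) ∂ρ := by
      have : ∫ x, θ x * wt lam x * (1 + s * (u x - uA)) ∂ρ = a := by
        have e : (fun x => θ x * wt lam x * (1 + s * (u x - uA))) =
            fun x => (1 - s * uA) * (θ x * wt lam x) + s * (θ x * wt lam x * u x) := by
          funext x; ring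
        rw [e, integral_add (hρ.integrable (by fun_prop)) (hρ.integrable (by fun_prop)),
          integral_const_mul, integral_const_mul, ← ha]
        have : ∫ x, θ x * wt lam x * u x ∂ρ = uA * a := by rw [huA]; field_simp
        rw [this]; ring
      rw [← this]
      refine hρ.integral_mono (by fun_prop) (by fun_prop) fun x _ => ?_
      refine mul_le_mul_of_nonneg_left ?_ (mul_pos (p1 x) (wt_pos _ _)).le
      linarith [add_one_le_exp (s * (u x - uA))]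
    have hg : b ≤ ∫ x, θ' x * wt lam x * exp (-(s * (u x - uB))) ∂ρ := by
      have : ∫ x, θ' x * wt lam x * (1 - s * (u x - uB)) ∂ρ = b := by
        have e : (fun x => θ' x * wt lam x * (1 - s * (u x - uB))) =
            fun x => (1 + s * uB) * (θ' x * wt lam x) + (-s) * (θ' x * wt lam x * u x) := by
          funext x; ring
        rw [e, integral_add (hρ.integrable (by fun_prop)) (hρ.integrable (by fun_prop)),
          integral_const_mul, integral_const_mul, ← hb]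
        have : ∫ x, θ' x * wt lam x * u x ∂ρ = uB * b := by rw [huB]; field_simp
        rw [this]; ring
      rw [← this]
      refine hρ.integral_mono (by fun_prop) (by fun_prop) fun x _ => ?_
      refine mul_le_mul_of_nonneg_left ?_ (mul_pos (p2 x) (wt_pos _ _)).le
      linarith [add_one_le_exp (-(s * (u x - uB)))]
    rw [integral_mul_const, ← hc] at key
    have h1 : a * b ≤ (c * exp (-q)) ^ 2 :=
      (mul_le_mul hf hg bpos.le (apos.le.trans hf)).trans key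
    have h2 : √(a * b) ≤ c * exp (-q) := by
      rw [sqrt_le_left (by positivity)]; exact h1
    have h3 : √(a * b) * (1 + q) ≤ c := by
      calc √(a * b) * (1 + q) ≤ c * exp (-q) * exp q := by
            refine mul_le_mul h2 ?_ (by positivity) (by positivity)
            linarith [add_one_le_exp q]
        _ = c := by rw [mul_assoc, ← exp_add]; simp
    have h4 : √(a * b) * Δ ^ 2 = 4 * L ^ 2 / lam * (√(a * b) * q) := by
      rw [hq]; field_simp
    rw [h4]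
    exact mul_le_mul_of_nonneg_left (by linarith) (by positivity)
  · intro x hx y hy
    have hw : wt lam x * exp (s * (u x - uA)) * (wt lam y * exp (-(s * (u y - uB)))) ≤
        (wt lam ((1 / 2 : ℝ) • (x + y)) * exp (-q)) ^ 2 := by
      unfold wt
      rw [← exp_add, ← exp_add, ← exp_add, ← exp_add, sq (exp _), ← exp_add]
      refine exp_le_exp.mpr ?_
      have hm := norm_mid_sq x y
      have hl := hu x hx y hy
      have h1 : s * (u x - u y) ≤ |s| * (L * ‖x - y‖) := by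
        calc s * (u x - u y) ≤ |s * (u x - u y)| := le_abs_self _
          _ = |s| * |u x - u y| := abs_mul _ _
          _ ≤ _ := mul_le_mul_of_nonneg_left hl (abs_nonneg _)
      have h2 : |s| * (L * ‖x - y‖) ≤ lam * ‖x - y‖ ^ 2 / 2 + s ^ 2 * L ^ 2 / (2 * lam) := by
        have : 0 ≤ (lam * ‖x - y‖ - |s| * L) ^ 2 / (2 * lam) := by positivity
        have e : (lam * ‖x - y‖ - |s| * L) ^ 2 / (2 * lam) =
            lam * ‖x - y‖ ^ 2 / 2 + |s| ^ 2 * L ^ 2 / (2 * lam) - |s| * (L * ‖x - y‖) := by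
          field_simp; ring
        rw [e, sq_abs] at this
        linarith
      have h3 : s ^ 2 * L ^ 2 / (2 * lam) = 2 * q := by rw [hs, hq]; field_simp; norm_num
      have h4 : s * Δ = 4 * q := by rw [hs, hq]; field_simp
      have h5 : s * (u x - uA) + -(s * (u y - uB)) = s * (u x - u y) - s * Δ := by rw [hΔ]; ring
      nlinarith
    calc θ x * wt lam x * exp (s * (u x - uA)) * (θ' y * wt lam y * exp (-(s * (u y - uB))))
        = (θ x * θ' y) *
          (wt lam x * exp (s * (u x - uA)) * (wt lam y * exp (-(s * (u y - uB))))) := by ring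
      _ ≤ θ'' ((1 / 2 : ℝ) • (x + y)) ^ 2 * (wt lam ((1 / 2 : ℝ) • (x + y)) * exp (-q)) ^ 2 :=
          mul_le_mul (hlc x hx y hy) hw
            (mul_pos (mul_pos (wt_pos _ _) (exp_pos _)) (mul_pos (wt_pos _ _) (exp_pos _))).le
            (sq_nonneg _)
      _ = _ := by ring

theorem sqrt_sub_sq_le {a b α β : ℝ} (ha : 0 < a) (hb : 0 < b) (hα : 1 ≤ α) (hβ : 1 ≤ β) :
    (√a - √b) ^ 2 ≤ 2 * (√(a * α) - √(b * β)) ^ 2 + √(a * b) * (α - β) ^ 2 / 2 := by
  rw [sqrt_mul ha.le, sqrt_mul hb.le, sqrt_mul ha.le]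
  have hp : 0 < √a := sqrt_pos.mpr ha
  have hq : 0 < √b := sqrt_pos.mpr hb
  have hA : 1 ≤ √α := one_le_sqrt.mpr hα
  have hB : 1 ≤ √β := one_le_sqrt.mpr hβ
  have eA : α = √α ^ 2 := (sq_sqrt (by linarith)).symm
  have eB : β = √β ^ 2 := (sq_sqrt (by linarith)).symm
  generalize √a = p at *
  generalize √b = q at *
  generalize √α = A at *
  generalize √β = B at *
  subst eA eB
  have hAB : 4 * (A - B) ^ 2 ≤ (A ^ 2 - B ^ 2) ^ 2 := by
    have : (A ^ 2 - B ^ 2) ^ 2 = (A + B) ^ 2 * (A - B) ^ 2 := by ring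
    rw [this]
    exact mul_le_mul_of_nonneg_right (by nlinarith) (sq_nonneg _)
  have h4 : p * q * (4 * (A - B) ^ 2) ≤ p * q * (A ^ 2 - B ^ 2) ^ 2 :=
    mul_le_mul_of_nonneg_left hAB (by positivity)
  rcases le_total q p with h | h
  · have h1 : (p - q) ^ 2 ≤ (A * (p - q)) ^ 2 := by
      rw [mul_pow]; exact le_mul_of_one_le_left (sq_nonneg _) (by nlinarith)
    have h2 : (A * (p - q)) ^ 2 ≤ 2 * (p * A - q * B) ^ 2 + 2 * (q * (A - B)) ^ 2 := by
      nlinarith [sq_nonneg (p * A - q * B + q * (A - B))]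
    have h3 : (q * (A - B)) ^ 2 ≤ p * q * (A - B) ^ 2 := by
      rw [mul_pow]; exact mul_le_mul_of_nonneg_right (by nlinarith) (sq_nonneg _)
    linarith
  · have h1 : (p - q) ^ 2 ≤ (B * (p - q)) ^ 2 := by
      rw [mul_pow]; exact le_mul_of_one_le_left (sq_nonneg _) (by nlinarith)
    have h2 : (B * (p - q)) ^ 2 ≤ 2 * (p * A - q * B) ^ 2 + 2 * (p * (A - B)) ^ 2 := by
      nlinarith [sq_nonneg (p * A - q * B + p * (A - B))]
    have h3 : (p * (A - B)) ^ 2 ≤ p * q * (A - B) ^ 2 := by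
      rw [mul_pow]; exact mul_le_mul_of_nonneg_right (by nlinarith) (sq_nonneg _)
    linarith

theorem exp_sixteenth_le : exp (1 / 16 : ℝ) ≤ 4 / 3 := by
  have := Real.exp_bound_div_one_sub_of_interval (x := 1 / 16) (by norm_num) (by norm_num)
  refine this.trans (by norm_num)

theorem abs_exp_sub_le {s t : ℝ} (hs : s ≤ 1 / 16) (ht : t ≤ 1 / 16) :
    |exp s - exp t| ≤ 4 / 3 * |s - t| := by
  wlog h : t ≤ s generalizing s t
  · rw [abs_sub_comm, abs_sub_comm s]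
    exact this ht hs (le_of_not_ge h)
  rw [abs_of_nonneg (sub_nonneg.mpr (exp_le_exp.mpr h)), abs_of_nonneg (sub_nonneg.mpr h)]
  have h1 : exp s * (1 + (t - s)) ≤ exp t := by
    calc exp s * (1 + (t - s)) ≤ exp s * exp (t - s) :=
          mul_le_mul_of_nonneg_left (by linarith [add_one_le_exp (t - s)]) (exp_pos _).le
      _ = exp t := by rw [← exp_add]; congr 1; ring
  have h2 : exp s ≤ 4 / 3 := (exp_le_exp.mpr hs).trans exp_sixteenth_le
  nlinarith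

/-- The inverse weight. -/
noncomputable def iw (lam : ℝ) (x : E) : ℝ := exp (lam * ‖x‖ ^ 2)

theorem continuous_iw (lam : ℝ) : Continuous (iw lam : E → ℝ) := by
  unfold iw; fun_prop

theorem wt_mul_iw (lam : ℝ) (x : E) : wt lam x * iw lam x = 1 := by
  unfold wt iw; rw [← exp_add]; simp

theorem iw_facts (hR : 0 < R) {x y : E} (hx : ‖x‖ ≤ R) (hy : ‖y‖ ≤ R) :
    1 ≤ iw (1 / (16 * R ^ 2)) x ∧ iw (1 / (16 * R ^ 2)) x ≤ 4 / 3 ∧
      |iw (1 / (16 * R ^ 2)) x - iw (1 / (16 * R ^ 2)) y| ≤ 1 / (6 * R) * ‖x - y‖ := by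
  have hb : ∀ z : E, ‖z‖ ≤ R → 1 / (16 * R ^ 2) * ‖z‖ ^ 2 ≤ 1 / 16 := by
    intro z hz
    have : ‖z‖ ^ 2 ≤ R ^ 2 := pow_le_pow_left₀ (norm_nonneg _) hz 2
    calc 1 / (16 * R ^ 2) * ‖z‖ ^ 2 ≤ 1 / (16 * R ^ 2) * R ^ 2 :=
          mul_le_mul_of_nonneg_left this (by positivity)
      _ = 1 / 16 := by field_simp
  refine ⟨one_le_exp (by positivity), (exp_le_exp.mpr (hb x hx)).trans exp_sixteenth_le, ?_⟩
  refine (abs_exp_sub_le (hb x hx) (hb y hy)).trans ?_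
  rw [← mul_sub, abs_mul, abs_of_pos (by positivity : 0 < 1 / (16 * R ^ 2))]
  have h1 : |‖x‖ ^ 2 - ‖y‖ ^ 2| ≤ 2 * R * ‖x - y‖ := by
    have : ‖x‖ ^ 2 - ‖y‖ ^ 2 = (‖x‖ + ‖y‖) * (‖x‖ - ‖y‖) := by ring
    rw [this, abs_mul, abs_of_nonneg (by positivity)]
    exact mul_le_mul (by linarith) (abs_norm_sub_norm_le x y) (abs_nonneg _) (by positivity)
  calc 4 / 3 * (1 / (16 * R ^ 2) * |‖x‖ ^ 2 - ‖y‖ ^ 2|)
      ≤ 4 / 3 * (1 / (16 * R ^ 2) * (2 * R * ‖x - y‖)) := by gcongr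
    _ = 1 / (6 * R) * ‖x - y‖ := by field_simp; ring

/-- Termwise estimates for one cell. -/
theorem cell_terms (hρ : Good ρ K R) {θ θ' θ'' : E → ℝ} (c1 : Continuous θ) (c2 : Continuous θ')
    (c3 : Continuous θ'') (p1 : ∀ x, 0 < θ x) (p2 : ∀ x, 0 < θ' x) (p3 : ∀ x, 0 < θ'' x)
    (hlc : ∀ x ∈ K, ∀ y ∈ K, θ x * θ' y ≤ θ'' ((1 / 2 : ℝ) • (x + y)) ^ 2)
    (a' b' c' a b : ℝ) (ha' : a' = ∫ x, θ x * wt (1 / (16 * R ^ 2)) x ∂ρ)
    (hb' : b' = ∫ x, θ' x * wt (1 / (16 * R ^ 2)) x ∂ρ)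
    (hc' : c' = ∫ x, θ'' x * wt (1 / (16 * R ^ 2)) x ∂ρ)
    (ha : a = ∫ x, θ x ∂ρ) (hb : b = ∫ x, θ' x ∂ρ) (v : E) {τ : ℝ} (hτ : 0 < τ) :
    0 < a' ∧ 0 < b' ∧
    (√a' - √b') ^ 2 ≤ 2 * (√a - √b) ^ 2 + (c' - √(a' * b')) ∧
    ∫ x, θ' x * ⟪x, v⟫ ∂ρ - ∫ x, θ x * ⟪x, v⟫ ∂ρ ≤
      τ * ((2 * a + b) * ‖v‖ ^ 2) + R ^ 2 / τ * (36 * (c' - √(a' * b')) + (√a' - √b') ^ 2) := by
  have hR := hρ.R_pos
  set lam := 1 / (16 * R ^ 2) with hlam
  have lpos : 0 < lam := by positivity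
  have cw := continuous_wt (E := E) lam
  have ci := continuous_iw (E := E) lam
  have apos : 0 < a' := ha' ▸ hρ.integral_pos (by fun_prop) fun x => mul_pos (p1 x) (wt_pos _ _)
  have bpos : 0 < b' := hb' ▸ hρ.integral_pos (by fun_prop) fun x => mul_pos (p2 x) (wt_pos _ _)
  have hiw := fun x (hx : x ∈ K) y (hy : y ∈ K) =>
    iw_facts hR (hρ.norm_le x hx) (hρ.norm_le y hy)
  have haa : a' ≤ a := by
    rw [ha', ha]
    refine hρ.integral_mono (by fun_prop) c1 fun x hx => ?_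
    have h1 := (hiw x hx x hx).1
    have h2 := wt_mul_iw lam x
    have h3 := wt_pos lam x
    have : wt lam x ≤ 1 := by nlinarith
    nlinarith [p1 x]
  have hbb : b' ≤ b := by
    rw [hb', hb]
    refine hρ.integral_mono (by fun_prop) c2 fun x hx => ?_
    have h1 := (hiw x hx x hx).1
    have h2 := wt_mul_iw lam x
    have h3 := wt_pos lam x
    have : wt lam x ≤ 1 := by nlinarith
    nlinarith [p2 x]
  set G := √(a' * b') with hG
  have Gpos : 0 < G := sqrt_pos.mpr (mul_pos apos bpos)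
  -- first test function
  have k1 := cell_bound hρ c1 c2 c3 p1 p2 p3 hlc lpos ci (L := 1 / (6 * R)) (by positivity)
    (fun x hx y hy => (hiw x hx y hy).2.2)
  have e1 : ∫ x, θ x * wt lam x * iw lam x ∂ρ = a := by
    rw [ha]; congr 1; funext x; rw [mul_assoc, wt_mul_iw, mul_one]
  have e2 : ∫ x, θ' x * wt lam x * iw lam x ∂ρ = b := by
    rw [hb]; congr 1; funext x; rw [mul_assoc, wt_mul_iw, mul_one]
  rw [e1, e2, ← ha', ← hb', ← hc', ← hG] at k1
  have e3 : 4 * (1 / (6 * R)) ^ 2 / lam = 16 / 9 := by rw [hlam]; field_simp; norm_num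
  rw [e3] at k1
  have hσ : 0 ≤ c' - G := by
    have : 0 ≤ G * (a / a' - b / b') ^ 2 := by positivity
    linarith
  refine ⟨apos, bpos, ?_, ?_⟩
  · have := sqrt_sub_sq_le apos bpos ((one_le_div apos).mpr haa) ((one_le_div bpos).mpr hbb)
    rw [mul_div_cancel₀ _ apos.ne', mul_div_cancel₀ _ bpos.ne', ← hG] at this
    linarith
  · by_cases hv : v = 0
    · subst hv
      simp only [inner_zero_right, mul_zero, integral_zero, sub_self, norm_zero]
      have : 0 ≤ 2 * a + b := by linarith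
      positivity
    have vpos : 0 < ‖v‖ := norm_pos_iff.mpr hv
    have hlip : ∀ x ∈ K, ∀ y ∈ K, |⟪x, v⟫ * iw lam x - ⟪y, v⟫ * iw lam y| ≤
        3 / 2 * ‖v‖ * ‖x - y‖ := by
      intro x hx y hy
      obtain ⟨h1, h2, h3⟩ := hiw x hx y hy
      have e : ⟪x, v⟫ * iw lam x - ⟪y, v⟫ * iw lam y =
          ⟪x - y, v⟫ * iw lam x + ⟪y, v⟫ * (iw lam x - iw lam y) := by
        rw [inner_sub_left]; ring
      rw [e]
      refine (abs_add_le _ _).trans ?_
      rw [abs_mul, abs_mul, abs_of_nonneg (by linarith : 0 ≤ iw lam x)]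
      have h4 : |⟪x - y, v⟫| ≤ ‖x - y‖ * ‖v‖ := abs_real_inner_le_norm _ _
      have h5 : |⟪y, v⟫| ≤ R * ‖v‖ := (abs_real_inner_le_norm _ _).trans
        (mul_le_mul_of_nonneg_right (hρ.norm_le y hy) (norm_nonneg _))
      have h6 : |⟪x - y, v⟫| * iw lam x ≤ ‖x - y‖ * ‖v‖ * (4 / 3) :=
        mul_le_mul h4 h2 (by linarith) (by positivity)
      have h7 : |⟪y, v⟫| * |iw lam x - iw lam y| ≤ R * ‖v‖ * (1 / (6 * R) * ‖x - y‖) :=
        mul_le_mul h5 h3 (abs_nonneg _) (by positivity)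
      have h8 : R * ‖v‖ * (1 / (6 * R) * ‖x - y‖) = ‖x - y‖ * ‖v‖ / 6 := by field_simp
      nlinarith
    have k2 := cell_bound hρ c1 c2 c3 p1 p2 p3 hlc lpos (u := fun x => ⟪x, v⟫ * iw lam x)
      (by fun_prop) (L := 3 / 2 * ‖v‖) (by positivity) hlip
    have f1 : ∫ x, θ x * wt lam x * (⟪x, v⟫ * iw lam x) ∂ρ = ∫ x, θ x * ⟪x, v⟫ ∂ρ := by
      congr 1; funext x
      calc θ x * wt lam x * (⟪x, v⟫ * iw lam x) = θ x * ⟪x, v⟫ * (wt lam x * iw lam x) := by ring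
        _ = _ := by rw [wt_mul_iw, mul_one]
    have f2 : ∫ x, θ' x * wt lam x * (⟪x, v⟫ * iw lam x) ∂ρ = ∫ x, θ' x * ⟪x, v⟫ ∂ρ := by
      congr 1; funext x
      calc θ' x * wt lam x * (⟪x, v⟫ * iw lam x) = θ' x * ⟪x, v⟫ * (wt lam x * iw lam x) := by ring
        _ = _ := by rw [wt_mul_iw, mul_one]
    rw [f1, f2, ← ha', ← hb', ← hc', ← hG] at k2
    have e4 : 4 * (3 / 2 * ‖v‖) ^ 2 / lam = 144 * R ^ 2 * ‖v‖ ^ 2 := by
      rw [hlam]; field_simp; norm_num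
    rw [e4] at k2
    have hbound : ∀ (ϑ : E → ℝ), Continuous ϑ → (∀ x, 0 < ϑ x) →
        |∫ x, ϑ x * ⟪x, v⟫ ∂ρ| ≤ 4 / 3 * R * ‖v‖ * ∫ x, ϑ x * wt lam x ∂ρ := by
      intro ϑ cϑ pϑ
      refine abs_integral_le_integral_abs.trans ?_
      rw [← integral_const_mul]
      refine hρ.integral_mono (by fun_prop) (by fun_prop) fun x hx => ?_
      rw [abs_mul, abs_of_pos (pϑ x)]
      have h5 : |⟪x, v⟫| ≤ R * ‖v‖ := (abs_real_inner_le_norm _ _).trans
        (mul_le_mul_of_nonneg_right (hρ.norm_le x hx) (norm_nonneg _))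
      have h2 := (hiw x hx x hx).2.1
      have h3 := wt_mul_iw lam x
      have h4 := wt_pos lam x
      have h6 : 1 ≤ 4 / 3 * wt lam x := by nlinarith
      calc ϑ x * |⟪x, v⟫| ≤ ϑ x * (R * ‖v‖) := mul_le_mul_of_nonneg_left h5 (pϑ x).le
        _ ≤ ϑ x * (R * ‖v‖) * (4 / 3 * wt lam x) :=
            le_mul_of_one_le_right (mul_pos (pϑ x) (by positivity)).le h6
        _ = _ := by ring
    have bA := hbound θ c1 p1
    have bB := hbound θ' c2 p2
    rw [← ha'] at bA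
    rw [← hb'] at bB
    set IA := ∫ x, θ x * ⟪x, v⟫ ∂ρ
    set IB := ∫ x, θ' x * ⟪x, v⟫ ∂ρ
    set uA := IA / a' with huA
    set uB := IB / b' with huB
    have hIA : IA = a' * uA := by rw [huA]; field_simp
    have hIB : IB = b' * uB := by rw [huB]; field_simp
    have buA : |uA| ≤ 4 / 3 * R * ‖v‖ := by
      rw [huA, abs_div, abs_of_pos apos, div_le_iff₀ apos]; exact bA
    have buB : |uB| ≤ 4 / 3 * R * ‖v‖ := by
      rw [huB, abs_div, abs_of_pos bpos, div_le_iff₀ bpos]; exact bB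
    set p := √a' with hp
    set q := √b' with hq
    have ppos : 0 < p := sqrt_pos.mpr apos
    have qpos : 0 < q := sqrt_pos.mpr bpos
    have pa : a' = p ^ 2 := (sq_sqrt apos.le).symm
    have qb : b' = q ^ 2 := (sq_sqrt bpos.le).symm
    have Gpq : G = p * q := by rw [hG, sqrt_mul apos.le]
    -- the mass term
    have t1 : ∀ uu : ℝ, |uu| ≤ 4 / 3 * R * ‖v‖ →
        (b' - a') * uu ≤ τ * ((a + b) * ‖v‖ ^ 2) + R ^ 2 / τ * (p - q) ^ 2 := by
      intro uu huu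
      have h1 : (b' - a') * uu ≤ |p - q| * (p + q) * (4 / 3 * R * ‖v‖) := by
        calc (b' - a') * uu ≤ |(b' - a') * uu| := le_abs_self _
          _ = |p - q| * (p + q) * |uu| := by
              rw [abs_mul, pa, qb, show q ^ 2 - p ^ 2 = -((p - q) * (p + q)) by ring, abs_neg,
                abs_mul, abs_of_pos (by linarith : 0 < p + q)]
          _ ≤ _ := mul_le_mul_of_nonneg_left huu (by positivity)
      have h2 : |p - q| * (p + q) * (4 / 3 * R * ‖v‖) ≤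
          τ / 2 * ((p + q) ^ 2 * ‖v‖ ^ 2) + R ^ 2 / τ * |p - q| ^ 2 := by
        have : 0 ≤ (τ * ((p + q) * ‖v‖) - 4 / 3 * R * |p - q|) ^ 2 / (2 * τ) := by positivity
        have e : (τ * ((p + q) * ‖v‖) - 4 / 3 * R * |p - q|) ^ 2 / (2 * τ) =
            τ / 2 * ((p + q) ^ 2 * ‖v‖ ^ 2) + 8 / 9 * (R ^ 2 / τ * |p - q| ^ 2)
              - |p - q| * (p + q) * (4 / 3 * R * ‖v‖) := by
          field_simp; ring
        have h3 : 0 ≤ R ^ 2 / τ * |p - q| ^ 2 := by positivity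
        linarith
      rw [sq_abs] at h2
      have h3 : (p + q) ^ 2 ≤ 2 * (a + b) := by nlinarith [sq_nonneg (p - q)]
      have h4 : τ / 2 * ((p + q) ^ 2 * ‖v‖ ^ 2) ≤ τ / 2 * (2 * (a + b) * ‖v‖ ^ 2) := by gcongr
      linarith
    -- the displacement term
    have t2 : ∀ mn : ℝ, 0 ≤ mn → mn ≤ G → mn ≤ a →
        mn * (uB - uA) ≤ τ * (a * ‖v‖ ^ 2) + R ^ 2 / τ * (36 * (c' - G)) := by
      intro mn h0 h1 h2
      have h3 : (mn * (uB - uA)) ^ 2 ≤ a * (144 * R ^ 2 * ‖v‖ ^ 2 * (c' - G)) := by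
        calc (mn * (uB - uA)) ^ 2 = mn * (mn * (uA - uB) ^ 2) := by ring
          _ ≤ a * (G * (uA - uB) ^ 2) :=
              mul_le_mul h2 (mul_le_mul_of_nonneg_right h1 (sq_nonneg _)) (by positivity)
                (by linarith)
          _ ≤ _ := mul_le_mul_of_nonneg_left k2 (by linarith)
      refine le_of_sq_le_sq ?_ ?_
      · refine h3.trans ?_
        have e : a * (144 * R ^ 2 * ‖v‖ ^ 2 * (c' - G)) =
            4 * (τ * (a * ‖v‖ ^ 2)) * (R ^ 2 / τ * (36 * (c' - G))) := by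
          field_simp; ring
        rw [e]
        nlinarith [sq_nonneg (τ * (a * ‖v‖ ^ 2) - R ^ 2 / τ * (36 * (c' - G)))]
      · have : 0 ≤ a := by linarith
        positivity
    rw [hIA, hIB]
    have fin : τ * ((2 * a + b) * ‖v‖ ^ 2) + R ^ 2 / τ * (36 * (c' - G) + (p - q) ^ 2) =
        (τ * (a * ‖v‖ ^ 2) + R ^ 2 / τ * (36 * (c' - G))) +
          (τ * ((a + b) * ‖v‖ ^ 2) + R ^ 2 / τ * (p - q) ^ 2) := by ring
    rw [fin]
    rcases le_total p q with h | h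
    · have m1 : a' ≤ G := by
        rw [Gpq, pa, sq]; exact mul_le_mul_of_nonneg_left h ppos.le
      have e : b' * uB - a' * uA = a' * (uB - uA) + (b' - a') * uB := by ring
      rw [e]
      exact add_le_add (t2 a' apos.le m1 haa) (t1 uB buB)
    · have m1 : b' ≤ G := by
        rw [Gpq, qb, sq]; exact mul_le_mul_of_nonneg_right h qpos.le
      have m2 : b' ≤ a := by
        refine le_trans ?_ haa
        rw [pa, qb]; exact pow_le_pow_left₀ qpos.le h 2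
      have e : b' * uB - a' * uA = b' * (uB - uA) + (b' - a') * uA := by ring
      rw [e]
      exact add_le_add (t2 b' bpos.le m1 m2) (t1 uA buA)

/-- The barycentre estimate. -/
theorem bary_bound {ι : Type*} [Fintype ι] (hρ : Good ρ K R) {θ θ' θ'' : ι → E → ℝ}
    (c1 : ∀ k, Continuous (θ k)) (c2 : ∀ k, Continuous (θ' k)) (c3 : ∀ k, Continuous (θ'' k))
    (p1 : ∀ k x, 0 < θ k x) (p2 : ∀ k x, 0 < θ' k x) (p3 : ∀ k x, 0 < θ'' k x)
    (s1 : ∀ x, ∑ k, θ k x = 1) (s2 : ∀ x, ∑ k, θ' k x = 1) (s3 : ∀ x, ∑ k, θ'' k x = 1)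
    (hlc : ∀ k, ∀ x ∈ K, ∀ y ∈ K, θ k x * θ' k y ≤ θ'' k ((1 / 2 : ℝ) • (x + y)) ^ 2)
    (a b : ι → ℝ) (ha : ∀ k, a k = ∫ x, θ k x ∂ρ) (hb : ∀ k, b k = ∫ x, θ' k x ∂ρ)
    (v : ι → E) {τ : ℝ} (hτ : 0 < τ) :
    ∑ k, (∫ x, θ' k x * ⟪x, v k⟫ ∂ρ - ∫ x, θ k x * ⟪x, v k⟫ ∂ρ) ≤
      τ * ∑ k, (2 * a k + b k) * ‖v k‖ ^ 2 + 76 * R ^ 2 / τ * ∑ k, (a k - b k) ^ 2 / a k := by
  set lam := 1 / (16 * R ^ 2) with hlam
  have cw := continuous_wt (E := E) lam
  let a' : ι → ℝ := fun k => ∫ x, θ k x * wt lam x ∂ρ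
  let b' : ι → ℝ := fun k => ∫ x, θ' k x * wt lam x ∂ρ
  let c' : ι → ℝ := fun k => ∫ x, θ'' k x * wt lam x ∂ρ
  have hk := fun k => cell_terms hρ (c1 k) (c2 k) (c3 k) (p1 k) (p2 k) (p3 k) (hlc k)
    (a' k) (b' k) (c' k) (a k) (b k) rfl rfl rfl (ha k) (hb k) (v k) hτ
  have hsum : ∀ ϑ : ι → E → ℝ, (∀ k, Continuous (ϑ k)) → (∀ x, ∑ k, ϑ k x = 1) →
      ∑ k, ∫ x, ϑ k x * wt lam x ∂ρ = ∫ x, wt lam x ∂ρ := by
    intro ϑ cϑ sϑ
    rw [← integral_finsetSum _ (f := fun k x => ϑ k x * wt lam x)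
      fun k _ => hρ.integrable ((cϑ k).mul cw)]
    congr 1; funext x
    rw [← Finset.sum_mul, sϑ, one_mul]
  have ea := hsum θ c1 s1
  have eb := hsum θ' c2 s2
  have ec := hsum θ'' c3 s3
  have hσ : ∑ k, (c' k - √(a' k * b' k)) = (∑ k, (√(a' k) - √(b' k)) ^ 2) / 2 := by
    have : ∀ k, (√(a' k) - √(b' k)) ^ 2 = a' k + b' k - 2 * √(a' k * b' k) := by
      intro k
      obtain ⟨h1, h2, -, -⟩ := hk k
      rw [sqrt_mul h1.le, sub_sq, sq_sqrt h1.le, sq_sqrt h2.le]; ring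
    simp only [this, Finset.sum_sub_distrib, Finset.sum_add_distrib, ← Finset.mul_sum]
    simp only [a', b', c'] at *
    linarith
  have h1 : ∑ k, (√(a' k) - √(b' k)) ^ 2 ≤
      2 * ∑ k, (√(a k) - √(b k)) ^ 2 + ∑ k, (c' k - √(a' k * b' k)) := by
    rw [Finset.mul_sum, ← Finset.sum_add_distrib]
    exact Finset.sum_le_sum fun k _ => (hk k).2.2.1
  have h2 : ∑ k, (√(a k) - √(b k)) ^ 2 ≤ ∑ k, (a k - b k) ^ 2 / a k := by
    refine Finset.sum_le_sum fun k _ => ?_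
    have apos : 0 < a k := ha k ▸ hρ.integral_pos (c1 k) (p1 k)
    have bpos : 0 < b k := hb k ▸ hρ.integral_pos (c2 k) (p2 k)
    rw [le_div_iff₀ apos]
    have hp : 0 < √(a k) := sqrt_pos.mpr apos
    have hq : 0 < √(b k) := sqrt_pos.mpr bpos
    have e1 : a k = √(a k) ^ 2 := (sq_sqrt apos.le).symm
    have e2 : b k = √(b k) ^ 2 := (sq_sqrt bpos.le).symm
    generalize √(a k) = p at *
    generalize √(b k) = q at *
    rw [e1, e2]
    have : (p ^ 2 - q ^ 2) ^ 2 = (p - q) ^ 2 * (p + q) ^ 2 := by ring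
    rw [this]
    exact mul_le_mul_of_nonneg_left (by nlinarith) (sq_nonneg _)
  have h3 := Finset.sum_le_sum fun k (_ : k ∈ Finset.univ) => (hk k).2.2.2
  refine h3.trans ?_
  rw [Finset.sum_add_distrib, ← Finset.mul_sum, ← Finset.mul_sum, Finset.sum_add_distrib,
    ← Finset.mul_sum]
  have h4 : 36 * ∑ k, (c' k - √(a' k * b' k)) + ∑ k, (√(a' k) - √(b' k)) ^ 2 ≤
      76 * ∑ k, (a k - b k) ^ 2 / a k := by linarith
  have h5 := mul_le_mul_of_nonneg_left h4 (show 0 ≤ R ^ 2 / τ by positivity)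
  have e : 76 * R ^ 2 / τ * ∑ k, (a k - b k) ^ 2 / a k =
      R ^ 2 / τ * (76 * ∑ k, (a k - b k) ^ 2 / a k) := by ring
  rw [e]
  linarith

end Crest.Agent.R82
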