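import Mathlib
import Crest.Agent.R82.Bary
import Crest.Agent.R82.Monge

set_option autoImplicit false
set_option linter.unusedSectionVars false

namespace Crest.Agent.R82

open Finset Real MeasureTheory Filter Topology Set
open scoped RealInnerProductSpace ENNReal
open Crest.AnalysisR.OT

variable {E : Type*} [NormedAddCommGroup E] [InnerProductSpace ℝ E]
  [MeasurableSpace E] [BorelSpace E] [SecondCountableTopology E]
variable {ρ : Measure E} {K : Set E} {R : ℝ}

theorem soft_le_monge [CompleteSpace E] (hρ : Good ρ K R) {μ : Measure E} {L : ℝ}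
    (hL : ∀ᵐ y ∂μ, ‖y‖ ≤ L) (hL0 : 0 < L) (l : E → ℝ) (hl : Measurable l)
    (h0 : ∀ c, ρ (l ⁻¹' {c}) = 0) {T : E → E} (hT : IsOptimalMap ρ μ T)
    {ι : Type*} [Fintype ι] (μk : ι → Measure E) (hsum : ∑ k, μk k = μ) (m : ι → ℝ)
    (hm : ∀ k, 0 < m k) (hmass : ∀ k, μk k univ = ENNReal.ofReal (m k)) (c : ι → E) {δ : ℝ}
    (hc : ∀ k, ∀ᵐ y ∂μk k, ‖y - c k‖ ≤ δ) (θ : ι → E → ℝ) (cθ : ∀ k, Continuous (θ k))
    (pθ : ∀ k x, 0 < θ k x) (sθ : ∀ x, ∑ k, θ k x = 1) (hθ : ∀ k, ∫ x, θ k x ∂ρ = m k) :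
    ∑ k, ∫ x, θ k x * ⟪x, c k⟫ ∂ρ ≤ ∫ x, ⟪x, T x⟫ ∂ρ + R * δ := by
  have := hρ.prob
  have hfin : ∀ k, IsFiniteMeasure (μk k) := fun k => ⟨by rw [hmass]; exact ENNReal.ofReal_lt_top⟩
  let ρk : ι → Measure E := fun k => ρ.withDensity fun x => ENNReal.ofReal (θ k x / m k)
  have hmeas : ∀ k, Measurable fun x => ENNReal.ofReal (θ k x / m k) := fun k =>
    ((cθ k).measurable.div_const _).ennreal_ofReal
  have hprob : ∀ k, IsProbabilityMeasure (ρk k) := by
    intro k
    constructor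
    simp only [ρk]
    rw [withDensity_apply _ MeasurableSet.univ, Measure.restrict_univ,
      ← ofReal_integral_eq_lintegral_ofReal (hρ.integrable ((cθ k).div_const _))
        (Eventually.of_forall fun x => (div_pos (pθ k x) (hm k)).le), integral_div, hθ,
      div_self (hm k).ne', ENNReal.ofReal_one]
  have hac : ∀ k, ρk k ≪ ρ := fun k => withDensity_absolutelyContinuous _ _
  let Γ : Measure (E × E) := ∑ k, (ρk k).prod (μk k)
  have hΓ : IsPairCoupling ρ μ Γ := by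
    constructor
    · simp only [Γ]
      rw [Measure.map_finset_sum measurable_fst.aemeasurable]
      simp only [Measure.map_fst_prod, hmass]
      ext s hs
      rw [Measure.finsetSum_apply]
      simp only [Measure.smul_apply, smul_eq_mul, ρk, withDensity_apply _ hs]
      have : ∀ k, ENNReal.ofReal (m k) * ∫⁻ x in s, ENNReal.ofReal (θ k x / m k) ∂ρ =
          ∫⁻ x in s, ENNReal.ofReal (θ k x) ∂ρ := by
        intro k
        rw [← lintegral_const_mul _ (hmeas k)]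
        congr 1; funext x
        rw [← ENNReal.ofReal_mul (hm k).le, mul_div_cancel₀ _ (hm k).ne']
      simp only [this]
      rw [← lintegral_finsetSum _ fun k _ => (cθ k).measurable.ennreal_ofReal]
      have : ∀ x, ∑ k, ENNReal.ofReal (θ k x) = 1 := by
        intro x
        rw [← ENNReal.ofReal_sum_of_nonneg fun k _ => (pθ k x).le, sθ, ENNReal.ofReal_one]
      simp [this]
    · simp only [Γ]
      rw [Measure.map_finset_sum measurable_snd.aemeasurable]
      simp only [Measure.map_snd_prod, measure_univ, one_smul]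
      exact hsum
  have hmk := monge_kantorovich hρ.compact hρ.ae hρ.norm_le hL hL0 l hl h0 hT Γ hΓ
  have hμk : ∀ k, ∀ᵐ y ∂μk k, ‖y‖ ≤ L := by
    intro k
    refine ae_mono ?_ hL
    rw [← hsum]
    exact Finset.single_le_sum (f := μk) (fun j _ => bot_le) (Finset.mem_univ k)
  have a1 : ∀ k, ∀ᵐ p ∂(ρk k).prod (μk k), p.1 ∈ K := fun k =>
    Measure.quasiMeasurePreserving_fst.ae ((hac k).ae_le hρ.ae)
  have a2 : ∀ k, ∀ᵐ p ∂(ρk k).prod (μk k), ‖p.2‖ ≤ L := fun k =>
    Measure.quasiMeasurePreserving_snd.ae (hμk k)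
  have a3 : ∀ k, ∀ᵐ p ∂(ρk k).prod (μk k), ‖p.2 - c k‖ ≤ δ := fun k =>
    Measure.quasiMeasurePreserving_snd.ae (hc k)
  have hint : ∀ k, Integrable (fun p : E × E => ⟪p.1, p.2⟫) ((ρk k).prod (μk k)) := fun k =>
    integrable_inner_of_bdd measurable_fst measurable_snd
      ((a1 k).mono fun p hp => hρ.norm_le _ hp) (a2 k)
  have hk : ∀ k, ∫ x, θ k x * ⟪x, c k⟫ ∂ρ - R * δ * m k ≤
      ∫ p, ⟪p.1, p.2⟫ ∂((ρk k).prod (μk k)) := by
    intro k
    have i1 : Integrable (fun p : E × E => ⟪p.1, c k⟫) ((ρk k).prod (μk k)) :=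
      integrable_inner_of_bdd measurable_fst measurable_const
        ((a1 k).mono fun p hp => hρ.norm_le _ hp) (Eventually.of_forall fun _ => le_rfl)
    have i2 : Integrable (fun p : E × E => ⟪p.1, c k⟫ - R * δ) ((ρk k).prod (μk k)) :=
      i1.sub (integrable_const _)
    have h1 := integral_mono_ae i2 (hint k) (by
      filter_upwards [a1 k, a3 k] with p h1 h3
      have h4 : |⟪p.1, p.2 - c k⟫| ≤ R * δ := (abs_real_inner_le_norm _ _).trans
        (mul_le_mul (hρ.norm_le _ h1) h3 (norm_nonneg _) hρ.R_pos.le)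
      rw [inner_sub_right] at h4
      linarith [neg_abs_le (⟪p.1, p.2⟫ - ⟪p.1, c k⟫)])
    refine le_trans (le_of_eq ?_) h1
    rw [integral_fun_fst (fun x => ⟪x, c k⟫ - R * δ)]
    simp only [ρk]
    rw [integral_withDensity_eq_integral_toReal_smul (hmeas k)
      (Eventually.of_forall fun x => ENNReal.ofReal_lt_top)]
    rw [measureReal_def, hmass, ENNReal.toReal_ofReal (hm k).le, smul_eq_mul, ← integral_const_mul,
      ← hθ k, ← integral_const_mul, ← integral_sub (hρ.integrable (by have := cθ k; fun_prop))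
        (hρ.integrable (by have := cθ k; fun_prop))]
    congr 1; funext x
    rw [hθ k, ENNReal.toReal_ofReal (div_pos (pθ k x) (hm k)).le, smul_eq_mul]
    field_simp [(hm k).ne']
  have hs : ∑ k, m k = 1 := by
    simp only [← hθ]
    rw [← integral_finsetSum _ (fun k _ => hρ.integrable (cθ k))]
    simp [sθ]
  have h2 := Finset.sum_le_sum fun k (_ : k ∈ Finset.univ) => hk k
  rw [Finset.sum_sub_distrib, ← Finset.mul_sum, hs, mul_one,
    ← integral_finsetSum_measure fun k _ => hint k] at h2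
  linarith

theorem exists_gap (hρ : Good ρ K R) {μ : Measure E} {L : ℝ}
    (hL : ∀ᵐ y ∂μ, ‖y‖ ≤ L) {T : E → E} (hT : IsOptimalMap ρ μ T)
    {ι : Type*} [Fintype ι] (μk : ι → Measure E) (hsum : ∑ k, μk k = μ) (m : ι → ℝ)
    (hm : ∀ k, 0 < m k) (hs : ∑ k, m k = 1)
    (hmass : ∀ k, μk k univ = ENNReal.ofReal (m k)) (c : ι → E) {δ : ℝ}
    (hc : ∀ k, ∀ᵐ y ∂μk k, ‖y - c k‖ ≤ δ) (φ : E → ℝ) (cφ : Continuous φ) (a : ι → ℝ)
    (ha : ∀ k x, ⟪x, c k⟫ - a k ≤ φ x) {G : ℝ}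
    (hG : ∫ x, φ x ∂ρ + ∑ k, m k * a k ≤ ∫ x, ⟪x, T x⟫ ∂ρ + G) :
    ∃ g : E → ℝ, Integrable g ρ ∧ (∀ x ∈ K, 0 ≤ g x) ∧
      (∀ x, ∀ z ∈ K, φ x + ⟪z - x, T x⟫ - g x ≤ φ z) ∧ ∫ x, g x ∂ρ ≤ G + R * δ := by
  have := hρ.prob
  have hfin : ∀ k, IsFiniteMeasure (μk k) := fun k => ⟨by rw [hmass]; exact ENNReal.ofReal_lt_top⟩
  have hne : Nonempty K := Set.Nonempty.to_subtype hρ.ae.exists
  obtain ⟨hTm, hTμ, -⟩ := hT
  have : IsProbabilityMeasure μ := hTμ ▸ Measure.isProbabilityMeasure_map hTm.aemeasurable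
  let ψ : E → ℝ := fun p => ⨆ z : K, (⟪(z : E), p⟫ - φ z)
  have hbdd : ∀ p, BddAbove (range fun z : K => ⟪(z : E), p⟫ - φ z) := by
    intro p
    have := hρ.compact.bddAbove_image (f := fun z => ⟪z, p⟫ - φ z) (by fun_prop)
    rwa [Set.image_eq_range] at this
  have hle : ∀ p, ∀ z ∈ K, ⟪z, p⟫ - φ z ≤ ψ p := fun p z hz => le_ciSup (hbdd p) ⟨z, hz⟩
  have hlip : ∀ p q, ψ p ≤ ψ q + R * ‖p - q‖ := by
    intro p q
    refine ciSup_le fun z => ?_
    have h1 := hle q z z.2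
    have h4 : ⟪(z : E), p - q⟫ ≤ R * ‖p - q‖ := (real_inner_le_norm _ _).trans
      (mul_le_mul_of_nonneg_right (hρ.norm_le _ z.2) (norm_nonneg _))
    rw [inner_sub_right] at h4
    linarith
  have cψ : Continuous ψ := by
    have : LipschitzWith ⟨R, hρ.R_pos.le⟩ ψ :=
      LipschitzWith.of_le_add_mul _ fun p q => by rw [dist_eq_norm]; exact hlip p q
    exact this.continuous
  have hψb : ∀ p, ‖p‖ ≤ L → ‖ψ p‖ ≤ |ψ 0| + R * L := by
    intro p hp
    have h1 := hlip p 0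
    have h2 := hlip 0 p
    rw [sub_zero] at h1
    rw [zero_sub, norm_neg] at h2
    have h3 := mul_le_mul_of_nonneg_left hp hρ.R_pos.le
    rw [Real.norm_eq_abs, abs_le]
    constructor <;> linarith [le_abs_self (ψ 0), neg_abs_le (ψ 0)]
  have hTL := ae_norm_le_of_map hTm hTμ hL
  have i1 : Integrable (fun x => ψ (T x)) ρ :=
    Integrable.of_bound (cψ.measurable.comp hTm).aestronglyMeasurable _
      (hTL.mono fun x hx => hψb _ hx)
  have i2 : Integrable (fun x => ⟪x, T x⟫) ρ :=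
    integrable_inner_of_bdd measurable_id hTm (hρ.ae.mono hρ.norm_le) hTL
  have i3 : Integrable (fun x => φ x + ψ (T x)) ρ := (hρ.integrable cφ).add i1
  refine ⟨fun x => φ x + ψ (T x) - ⟪x, T x⟫, i3.sub i2, ?_, ?_, ?_⟩
  · intro x hx
    linarith [hle (T x) x hx]
  · intro x z hz
    have := hle (T x) z hz
    rw [inner_sub_left]
    linarith
  · rw [integral_sub i3 i2, integral_add (hρ.integrable cφ) i1]
    have hμk : ∀ k, ∀ᵐ y ∂μk k, ‖y‖ ≤ L := by
      intro k
      refine ae_mono ?_ hL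
      rw [← hsum]
      exact Finset.single_le_sum (f := μk) (fun j _ => bot_le) (Finset.mem_univ k)
    have i4 : ∀ k, Integrable ψ (μk k) := fun k =>
      Integrable.of_bound cψ.aestronglyMeasurable _ ((hμk k).mono fun x hx => hψb _ hx)
    have e1 : ∫ x, ψ (T x) ∂ρ = ∑ k, ∫ y, ψ y ∂μk k := by
      rw [← integral_finsetSum_measure fun k _ => i4 k, hsum, ← hTμ,
        integral_map hTm.aemeasurable cψ.aestronglyMeasurable]
    have e2 : ∀ k, ∫ y, ψ y ∂μk k ≤ m k * a k + R * δ * m k := by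
      intro k
      have h1 : ψ (c k) ≤ a k := ciSup_le fun z => by linarith [ha k z]
      have h2 := integral_mono_ae (i4 k) (integrable_const (a k + R * δ)) (by
        filter_upwards [hc k] with y hy
        have := hlip y (c k)
        have := mul_le_mul_of_nonneg_left hy hρ.R_pos.le
        linarith)
      rw [integral_const, measureReal_def, hmass, ENNReal.toReal_ofReal (hm k).le,
        smul_eq_mul] at h2
      linarith
    have e3 := Finset.sum_le_sum fun k (_ : k ∈ Finset.univ) => e2 k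
    rw [Finset.sum_add_distrib, ← Finset.mul_sum, hs] at e3
    linarith

/-- The second-difference estimate in one direction. -/
theorem dir_est (hρ : Good ρ K R) (v : E)
    (hTR : ∀ (w : E) (f : E → ℝ), Continuous f → (∀ x, 0 ≤ f x) →
      ∫ x in {x | x + w ∈ K}, f (x + w) ∂ρ ≤ ∫ x, f x ∂ρ)
    {κ : ℝ} (hκ : ρ.real {x | x + v ∈ K ∧ x - v ∈ K}ᶜ ≤ κ)
    {L : ℝ} (hL0 : 0 ≤ L) {T0 T1 : E → E} (m0 : Measurable T0) (m1 : Measurable T1)
    (b0 : ∀ᵐ x ∂ρ, ‖T0 x‖ ≤ L) (b1 : ∀ᵐ x ∂ρ, ‖T1 x‖ ≤ L)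
    {φ0 φ1 g0 g1 : E → ℝ} (c0 : Continuous φ0) (c1 : Continuous φ1)
    (hlip : ∀ x x', φ1 x ≤ φ1 x' + L * ‖x - x'‖)
    (i0 : Integrable g0 ρ) (i1 : Integrable g1 ρ) (p0 : ∀ x ∈ K, 0 ≤ g0 x) (p1 : ∀ x ∈ K, 0 ≤ g1 x)
    (s0 : ∀ x, ∀ z ∈ K, φ0 x + ⟪z - x, T0 x⟫ - g0 x ≤ φ0 z)
    (s1 : ∀ x, ∀ z ∈ K, φ1 x + ⟪z - x, T1 x⟫ - g1 x ≤ φ1 z) :
    ∫ x, ⟪v, T0 x - T1 x⟫ ^ 2 ∂ρ ≤ 6 * ∫ x, (φ0 x - φ1 x) ^ 2 ∂ρ + 12 * (L * ‖v‖) ^ 2 * κ +
      4 * (L * ‖v‖) * (∫ x, g0 x ∂ρ + 2 * ∫ x, g1 x ∂ρ) := by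
  have := hρ.prob
  set A := {x | x + v ∈ K ∧ x - v ∈ K} with hA
  have hKc := hρ.compact.isClosed
  have mP : ∀ w : E, MeasurableSet {x | x + w ∈ K} := fun w =>
    (hKc.preimage (f := fun x => x + w) (by fun_prop)).measurableSet
  have mA : MeasurableSet A :=
    (mP v).inter (hKc.preimage (f := fun x => x - v) (by fun_prop)).measurableSet
  set M := L * ‖v‖ with hM
  have M0 : 0 ≤ M := by positivity
  have κ0 : 0 ≤ κ := measureReal_nonneg.trans hκ
  let u : E → ℝ := fun x => (φ0 x - φ1 x) ^ 2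
  have cu : Continuous u := by fun_prop
  let D : E → ℝ := fun x => φ1 x - φ1 (x - v) + M
  have cD : Continuous D := by fun_prop
  have D0 : ∀ x, 0 ≤ D x := by
    intro x
    have := hlip (x - v) x
    rw [sub_sub_cancel_left, norm_neg] at this
    simp only [D]; linarith
  have D2 : ∀ x, D x ≤ 2 * M := by
    intro x
    have := hlip x (x - v)
    rw [sub_sub_cancel] at this
    simp only [D]; linarith
  have hTR' : ∀ (w : E) (f : E → ℝ), Continuous f → (∀ x, 0 ≤ f x) → A ⊆ {x | x + w ∈ K} →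
      ∫ x in A, f (x + w) ∂ρ ≤ ∫ x, f x ∂ρ := by
    intro w f cf pf hsub
    refine le_trans ?_ (hTR w f cf pf)
    exact setIntegral_mono_set (hρ.integrable (by fun_prop)).integrableOn
      (Eventually.of_forall fun x => pf _) hsub.eventuallyLE
  have t1 := hTR' v u cu (fun x => sq_nonneg _) fun x hx => hx.1
  have t2 := hTR' (-v) u cu (fun x => sq_nonneg _) fun x hx => by
    simpa [sub_eq_add_neg] using hx.2
  have t3 := hTR' v D cD D0 fun x hx => hx.1
  have t4 : ∫ x in A, u x ∂ρ ≤ ∫ x, u x ∂ρ :=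
    setIntegral_le_integral (hρ.integrable cu) (Eventually.of_forall fun x => sq_nonneg _)
  have t5 : ∫ x in A, g0 x ∂ρ ≤ ∫ x, g0 x ∂ρ := setIntegral_le_integral i0 (hρ.ae.mono p0)
  have t6 : ∫ x in A, g1 x ∂ρ ≤ ∫ x, g1 x ∂ρ := setIntegral_le_integral i1 (hρ.ae.mono p1)
  have t7 : ∫ x in Aᶜ, D x ∂ρ ≤ 2 * M * κ := by
    have := setIntegral_mono (μ := ρ) (s := Aᶜ) (hρ.integrable cD).integrableOn
      (integrable_const (2 * M)).integrableOn D2
    rw [setIntegral_const, smul_eq_mul] at this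
    nlinarith
  have t8 := integral_add_compl mA (hρ.integrable cD)
  have hab : ∀ᵐ x ∂ρ, |⟪v, T0 x - T1 x⟫| ≤ 2 * M := by
    filter_upwards [b0, b1] with x h0 h1
    refine (abs_real_inner_le_norm _ _).trans ?_
    have := (norm_sub_le (T0 x) (T1 x)).trans (add_le_add h0 h1)
    have := mul_le_mul_of_nonneg_left this (norm_nonneg v)
    linarith
  have ia : Integrable (fun x => ⟪v, T0 x - T1 x⟫ ^ 2) ρ := by
    refine Integrable.of_bound
      ((measurable_const.inner (m0.sub m1)).pow_const 2).aestronglyMeasurable ((2 * M) ^ 2) ?_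
    filter_upwards [hab] with x hx
    rw [Real.norm_eq_abs, abs_pow]
    exact pow_le_pow_left₀ (abs_nonneg _) hx 2
  have t9 : ∫ x in Aᶜ, ⟪v, T0 x - T1 x⟫ ^ 2 ∂ρ ≤ (2 * M) ^ 2 * κ := by
    have := setIntegral_mono_ae (μ := ρ) (s := Aᶜ) ia.integrableOn
      (integrable_const ((2 * M) ^ 2)).integrableOn (hab.mono fun x hx => by
        show ⟪v, T0 x - T1 x⟫ ^ 2 ≤ (2 * M) ^ 2
        rw [← sq_abs]; exact pow_le_pow_left₀ (abs_nonneg _) hx 2)
    rw [setIntegral_const, smul_eq_mul] at this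
    nlinarith [sq_nonneg (2 * M)]
  have j1 : Integrable (fun x => u (x + v)) ρ := hρ.integrable (by fun_prop)
  have j2 : Integrable (fun x => u (x + -v)) ρ := hρ.integrable (by fun_prop)
  have j3 : Integrable u ρ := hρ.integrable cu
  have j4 : Integrable (fun x => D (x + v)) ρ := hρ.integrable (by fun_prop)
  have j5 : Integrable D ρ := hρ.integrable cD
  have k1 : Integrable (fun x => 2 * u (x + v) + 2 * u (x + -v)) ρ :=
    (j1.const_mul 2).add (j2.const_mul 2)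
  have k2 : Integrable (fun x => 2 * u (x + v) + 2 * u (x + -v) + 2 * u x) ρ :=
    k1.add (j3.const_mul 2)
  have k3 : Integrable (fun x => D (x + v) - D x) ρ := j4.sub j5
  have k4 : Integrable (fun x => D (x + v) - D x + g0 x) ρ := k3.add i0
  have k5 : Integrable (fun x => D (x + v) - D x + g0 x + 2 * g1 x) ρ := k4.add (i1.const_mul 2)
  have k6 : Integrable (fun x => 2 * u (x + v) + 2 * u (x + -v) + 2 * u x +
      4 * M * (D (x + v) - D x + g0 x + 2 * g1 x)) ρ := k2.add (k5.const_mul _)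
  have t10 : ∫ x in A, ⟪v, T0 x - T1 x⟫ ^ 2 ∂ρ ≤ ∫ x in A, (2 * u (x + v) + 2 * u (x + -v) +
      2 * u x + 4 * M * (D (x + v) - D x + g0 x + 2 * g1 x)) ∂ρ := by
    refine setIntegral_mono_on_ae ia.integrableOn k6.integrableOn mA ?_
    filter_upwards [hab, hρ.ae] with x hx hxK hxA
    have q1 := s0 x _ hxA.1
    have q2 := s0 x _ hxA.2
    have q3 := s1 x _ hxA.1
    have q4 := s1 x _ hxA.2
    rw [add_sub_cancel_left] at q1 q3
    rw [sub_sub_cancel_left, inner_neg_left] at q2 q4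
    have q5 := p0 x hxK
    have q6 := p1 x hxK
    simp only [u, D, add_sub_cancel_right, ← sub_eq_add_neg]
    rw [inner_sub_right] at hx ⊢
    obtain ⟨hx1, hx2⟩ := abs_le.mp hx
    set a := ⟪v, T0 x⟫ - ⟪v, T1 x⟫ with ha
    set B := φ1 (x + v) - φ1 x + M - (φ1 x - φ1 (x - v) + M) + g0 x + 2 * g1 x with hB
    have B0 : 0 ≤ B := by linarith
    set up := φ0 (x + v) - φ1 (x + v)
    set um := φ0 (x - v) - φ1 (x - v)
    set u0 := φ0 x - φ1 x
    have gen : ∀ a w : ℝ, 0 ≤ a → a ≤ 2 * M → a ≤ w - u0 + B →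
        a ^ 2 ≤ 2 * w ^ 2 + 2 * u0 ^ 2 + 4 * M * B := by
      intro a w h1 h2 h3
      have e1 : a * a ≤ a * (w - u0 + B) := mul_le_mul_of_nonneg_left h3 h1
      have e2 : a * B ≤ 2 * M * B := mul_le_mul_of_nonneg_right h2 B0
      nlinarith [sq_nonneg (a - (w - u0)), sq_nonneg (w + u0)]
    rcases le_total 0 a with h | h
    · have := gen a up h hx2 (by simp only [ha, hB, up, u0]; linarith)
      nlinarith [sq_nonneg um]
    · have := gen (-a) um (by linarith) (by linarith) (by simp only [ha, hB, um, u0]; linarith)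
      nlinarith [sq_nonneg up]
  rw [integral_add k2.integrableOn (k5.const_mul _).integrableOn,
    integral_add k1.integrableOn (j3.const_mul 2).integrableOn,
    integral_add (j1.const_mul 2).integrableOn (j2.const_mul 2).integrableOn,
    integral_const_mul, integral_const_mul, integral_const_mul, integral_const_mul,
    integral_add k4.integrableOn (i1.const_mul 2).integrableOn,
    integral_add k3.integrableOn i0.integrableOn, integral_sub j4.integrableOn j5.integrableOn,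
    integral_const_mul] at t10
  have t11 := integral_add_compl mA ia
  have t12 : ∫ x in A, D (x + v) ∂ρ - ∫ x in A, D x ∂ρ + ∫ x in A, g0 x ∂ρ +
      2 * ∫ x in A, g1 x ∂ρ ≤ 2 * M * κ + ∫ x, g0 x ∂ρ + 2 * ∫ x, g1 x ∂ρ := by linarith
  have t13 := mul_le_mul_of_nonneg_left t12 (show 0 ≤ 4 * M by positivity)
  simp only [u] at t1 t2 t4 t10
  nlinarith

end Crest.Agent.R82
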