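import Mathlib

set_option autoImplicit false
set_option linter.unusedSectionVars false

namespace Crest.Agent.R82

open Finset Real
open scoped RealInnerProductSpace

variable {E : Type*} [NormedAddCommGroup E] [InnerProductSpace ℝ E]
variable {ι : Type*} [Fintype ι] [Nonempty ι]

/-- Partition function. -/
noncomputable def Z (y : ι → E) (ψ : ι → ℝ) (x : E) : ℝ := ∑ k, exp (⟪x, y k⟫ - ψ k)

/-- Soft maximum. -/
noncomputable def phi (y : ι → E) (ψ : ι → ℝ) (x : E) : ℝ := log (Z y ψ x)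

/-- Soft assignment weights. -/
noncomputable def th (y : ι → E) (ψ : ι → ℝ) (k : ι) (x : E) : ℝ :=
  exp (⟪x, y k⟫ - ψ k) / Z y ψ x

theorem Z_pos (y : ι → E) (ψ : ι → ℝ) (x : E) : 0 < Z y ψ x :=
  Finset.sum_pos (fun _ _ => exp_pos _) Finset.univ_nonempty

theorem th_pos (y : ι → E) (ψ : ι → ℝ) (k : ι) (x : E) : 0 < th y ψ k x :=
  div_pos (exp_pos _) (Z_pos y ψ x)

theorem sum_th (y : ι → E) (ψ : ι → ℝ) (x : E) : ∑ k, th y ψ k x = 1 := by
  unfold th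
  rw [← Finset.sum_div]
  exact div_self (Z_pos y ψ x).ne'

theorem continuous_Z (y : ι → E) (ψ : ι → ℝ) : Continuous (Z y ψ) := by
  unfold Z; fun_prop

theorem continuous_phi (y : ι → E) (ψ : ι → ℝ) : Continuous (phi y ψ) :=
  (continuous_Z y ψ).log fun x => (Z_pos y ψ x).ne'

theorem continuous_th (y : ι → E) (ψ : ι → ℝ) (k : ι) : Continuous (th y ψ k) := by
  unfold th
  exact Continuous.div (by fun_prop) (continuous_Z y ψ) fun x => (Z_pos y ψ x).ne'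

theorem phi_tangent (y y' : ι → E) (ψ ψ' : ι → ℝ) (x : E) :
    phi y ψ x + ∑ k, th y ψ k x * (⟪x, y' k - y k⟫ - (ψ' k - ψ k)) ≤ phi y' ψ' x := by
  have hJ := convexOn_exp.map_sum_le (t := Finset.univ) (w := fun k => th y ψ k x)
    (p := fun k => ⟪x, y' k - y k⟫ - (ψ' k - ψ k)) (fun k _ => (th_pos y ψ k x).le)
    (sum_th y ψ x) (fun _ _ => Set.mem_univ _)
  simp only [smul_eq_mul] at hJ
  have hZ : ∑ k, th y ψ k x * exp (⟪x, y' k - y k⟫ - (ψ' k - ψ k)) = Z y' ψ' x / Z y ψ x := by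
    conv_rhs => rw [Z, Finset.sum_div]
    refine Finset.sum_congr rfl fun k _ => ?_
    unfold th
    rw [div_mul_eq_mul_div, ← exp_add, inner_sub_right]
    congr 2; ring
  rw [hZ] at hJ
  have := log_le_log (exp_pos _) hJ
  rw [log_exp, log_div (Z_pos y' ψ' x).ne' (Z_pos y ψ x).ne'] at this
  unfold phi
  linarith

theorem th_logConcave (y : ι → E) (ψ ψ' : ι → ℝ) (k : ι) (x x' : E) :
    th y ψ k x * th y ψ' k x' ≤
      th y (fun j => (ψ j + ψ' j) / 2) k ((1 / 2 : ℝ) • (x + x')) ^ 2 := by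
  have hnum : ∀ j, exp (⟪(1 / 2 : ℝ) • (x + x'), y j⟫ - (ψ j + ψ' j) / 2) ^ 2 =
      exp (⟪x, y j⟫ - ψ j) * exp (⟪x', y j⟫ - ψ' j) := by
    intro j
    rw [sq, ← exp_add, ← exp_add, real_inner_smul_left, inner_add_left]
    congr 1; ring
  have hZ : Z y (fun j => (ψ j + ψ' j) / 2) ((1 / 2 : ℝ) • (x + x')) ^ 2 ≤ Z y ψ x * Z y ψ' x' := by
    unfold Z
    exact Finset.sum_sq_le_sum_mul_sum_of_sq_eq_mul _ (fun j _ => (exp_pos _).le)
      (fun j _ => (exp_pos _).le) (fun j _ => hnum j)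
  unfold th
  rw [div_pow, hnum, div_mul_div_comm]
  exact div_le_div_of_nonneg_left (by positivity) (pow_pos (Z_pos _ _ _) 2) hZ

theorem phi_single_le [DecidableEq ι] (y : ι → E) (ψ : ι → ℝ) (k : ι) (s : ℝ) (x : E) :
    phi y (ψ + Pi.single k s) x ≤ phi y ψ x + th y ψ k x * (exp (-s) - 1) := by
  have hZ : Z y (ψ + Pi.single k s) x = Z y ψ x * (1 + th y ψ k x * (exp (-s) - 1)) := by
    have h1 : Z y (ψ + Pi.single k s) x = Z y ψ x + exp (⟪x, y k⟫ - ψ k) * (exp (-s) - 1) := by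
      unfold Z
      rw [← Finset.add_sum_erase _ _ (Finset.mem_univ k),
        ← Finset.add_sum_erase _ (fun j => exp (⟪x, y j⟫ - ψ j)) (Finset.mem_univ k)]
      have : ∑ j ∈ Finset.univ.erase k, exp (⟪x, y j⟫ - (ψ + Pi.single k s : ι → ℝ) j) =
          ∑ j ∈ Finset.univ.erase k, exp (⟪x, y j⟫ - ψ j) := by
        refine Finset.sum_congr rfl fun j hj => ?_
        simp [Pi.single_eq_of_ne (Finset.ne_of_mem_erase hj)]
      rw [this]
      simp only [Pi.add_apply, Pi.single_eq_same]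
      rw [mul_sub, ← exp_add]
      have : ⟪x, y k⟫ - (ψ k + s) = ⟪x, y k⟫ - ψ k + -s := by ring
      rw [this]; ring
    rw [h1]
    unfold th
    field_simp [(Z_pos y ψ x).ne']
  have hpos : 0 < 1 + th y ψ k x * (exp (-s) - 1) := by
    have := Z_pos y (ψ + Pi.single k s) x
    rw [hZ] at this
    exact (pos_iff_pos_of_mul_pos this).mp (Z_pos y ψ x)
  unfold phi
  rw [hZ, log_mul (Z_pos y ψ x).ne' hpos.ne']
  have := log_le_sub_one_of_pos hpos
  linarith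

theorem le_phi (y : ι → E) (ψ : ι → ℝ) (k : ι) (x : E) : ⟪x, y k⟫ - ψ k ≤ phi y ψ x := by
  unfold phi
  rw [le_log_iff_exp_le (Z_pos y ψ x)]
  exact Finset.single_le_sum (f := fun j => exp (⟪x, y j⟫ - ψ j)) (fun j _ => (exp_pos _).le)
    (Finset.mem_univ k)

theorem phi_le_add (y y' : ι → E) (ψ ψ' : ι → ℝ) (x x' : E) (c : ℝ)
    (h : ∀ k, ⟪x, y k⟫ - ψ k ≤ ⟪x', y' k⟫ - ψ' k + c) : phi y ψ x ≤ phi y' ψ' x' + c := by
  have : Z y ψ x ≤ Z y' ψ' x' * exp c := by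
    unfold Z
    rw [Finset.sum_mul]
    refine Finset.sum_le_sum fun k _ => ?_
    rw [← exp_add]
    exact exp_le_exp.mpr (h k)
  have h2 := log_le_log (Z_pos y ψ x) this
  rw [log_mul (Z_pos _ _ _).ne' (exp_pos _).ne', log_exp] at h2
  exact h2

theorem phi_lip (y : ι → E) (ψ : ι → ℝ) (L : ℝ) (hL : ∀ k, ‖y k‖ ≤ L) (x x' : E) :
    phi y ψ x ≤ phi y ψ x' + L * ‖x - x'‖ := by
  refine phi_le_add _ _ _ _ _ _ _ fun k => ?_
  have h1 : ⟪x - x', y k⟫ ≤ ‖x - x'‖ * ‖y k‖ := real_inner_le_norm _ _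
  have h2 : ‖x - x'‖ * ‖y k‖ ≤ ‖x - x'‖ * L := mul_le_mul_of_nonneg_left (hL k) (norm_nonneg _)
  rw [inner_sub_left] at h1
  linarith

theorem phi_lip_psi (y : ι → E) (ψ ψ' : ι → ℝ) (x : E) :
    phi y ψ x ≤ phi y ψ' x + ‖ψ - ψ'‖ := by
  refine phi_le_add _ _ _ _ _ _ _ fun k => ?_
  have h1 := norm_le_pi_norm (ψ - ψ') k
  rw [Pi.sub_apply, Real.norm_eq_abs] at h1
  linarith [neg_abs_le (ψ k - ψ' k)]

theorem phi_zero (x : E) : phi (fun _ : ι => (0 : E)) (fun _ => 0) x = log (Fintype.card ι) := by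
  simp [phi, Z]

/-- Jensen for squares. -/
theorem sq_sum_th_le (y : ι → E) (ψ : ι → ℝ) (x : E) (d : ι → ℝ) :
    (∑ k, th y ψ k x * d k) ^ 2 ≤ ∑ k, th y ψ k x * d k ^ 2 := by
  have := Finset.sum_sq_le_sum_mul_sum_of_sq_eq_mul (Finset.univ : Finset ι)
    (r := fun k => th y ψ k x * d k) (f := fun k => th y ψ k x) (g := fun k => th y ψ k x * d k ^ 2)
    (fun k _ => (th_pos y ψ k x).le) (fun k _ => mul_nonneg (th_pos y ψ k x).le (sq_nonneg _))
    (fun k _ => by ring)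
  rwa [sum_th, one_mul] at this

theorem phi_sub_sq_le (y y' : ι → E) (ψ ψ' : ι → ℝ) (x : E) :
    (phi y ψ x - phi y' ψ' x) ^ 2 ≤
      ∑ k, (th y ψ k x + th y' ψ' k x) * (⟪x, y' k - y k⟫ - (ψ' k - ψ k)) ^ 2 := by
  have h1 := phi_tangent y y' ψ ψ' x
  have h2 := phi_tangent y' y ψ' ψ x
  have e : ∑ k, th y' ψ' k x * (⟪x, y k - y' k⟫ - (ψ k - ψ' k)) =
      - ∑ k, th y' ψ' k x * (⟪x, y' k - y k⟫ - (ψ' k - ψ k)) := by
    rw [← Finset.sum_neg_distrib]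
    refine Finset.sum_congr rfl fun k _ => ?_
    rw [inner_sub_right, inner_sub_right]; ring
  rw [e] at h2
  have j1 := sq_sum_th_le y ψ x fun k => ⟪x, y' k - y k⟫ - (ψ' k - ψ k)
  have j2 := sq_sum_th_le y' ψ' x fun k => ⟪x, y' k - y k⟫ - (ψ' k - ψ k)
  simp only [add_mul, Finset.sum_add_distrib]
  set A := ∑ k, th y ψ k x * (⟪x, y' k - y k⟫ - (ψ' k - ψ k))
  set B := ∑ k, th y' ψ' k x * (⟪x, y' k - y k⟫ - (ψ' k - ψ k))
  have : (phi y ψ x - phi y' ψ' x) ^ 2 ≤ A ^ 2 + B ^ 2 := by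
    rcases le_total (phi y ψ x) (phi y' ψ' x) with h | h
    · nlinarith [sq_nonneg A]
    · nlinarith [sq_nonneg B]
  linarith

end Crest.Agent.R82
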