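import Mathlib
import Crest.Agent.R82.Soft
import Crest.Agent.R82.Bary

set_option autoImplicit false
set_option linter.unusedSectionVars false

namespace Crest.Agent.R82

open Finset Real MeasureTheory
open scoped RealInnerProductSpace

variable {E : Type*} [NormedAddCommGroup E] [InnerProductSpace ℝ E]
  [MeasurableSpace E] [BorelSpace E]
variable {ι : Type*} [Fintype ι] [Nonempty ι]

/-- The smoothed Kantorovich functional. -/
noncomputable def F (ρ : Measure E) (y : ι → E) (ψ : ι → ℝ) : ℝ := ∫ x, phi y ψ x ∂ρ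

/-- The masses of the soft cells. -/
noncomputable def mass (ρ : Measure E) (y : ι → E) (ψ : ι → ℝ) (k : ι) : ℝ := ∫ x, th y ψ k x ∂ρ

/-- The first moments of the soft cells paired with a vector family. -/
noncomputable def bar (ρ : Measure E) (y : ι → E) (ψ : ι → ℝ) (v : ι → E) : ℝ :=
  ∑ k, ∫ x, th y ψ k x * ⟪x, v k⟫ ∂ρ

variable {ρ : Measure E} {K : Set E} {R : ℝ}

theorem F_tangent (hρ : Good ρ K R) (y y' : ι → E) (ψ ψ' : ι → ℝ) :
    F ρ y ψ + bar ρ y ψ (fun k => y' k - y k) - ∑ k, mass ρ y ψ k * (ψ' k - ψ k) ≤ F ρ y' ψ' := by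
  have c1 := continuous_phi y ψ
  have c2 := continuous_th y ψ
  have h := hρ.integral_mono (f := fun x => phi y ψ x +
    ∑ k, th y ψ k x * (⟪x, y' k - y k⟫ - (ψ' k - ψ k))) (by fun_prop) (continuous_phi y' ψ')
    (fun x _ => phi_tangent y y' ψ ψ' x)
  rw [integral_add (hρ.integrable c1) (hρ.integrable (by fun_prop)),
    integral_finsetSum _ (fun k _ => hρ.integrable (by fun_prop))] at h
  have e : ∀ k, ∫ x, th y ψ k x * (⟪x, y' k - y k⟫ - (ψ' k - ψ k)) ∂ρ =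
      ∫ x, th y ψ k x * ⟪x, y' k - y k⟫ ∂ρ - mass ρ y ψ k * (ψ' k - ψ k) := by
    intro k
    simp only [mul_sub (th y ψ k _) (⟪_, _⟫)]
    rw [integral_sub (hρ.integrable (by fun_prop)) (hρ.integrable (by fun_prop)),
      integral_mul_const]
    rfl
  simp only [e, Finset.sum_sub_distrib] at h
  unfold F bar
  linarith

theorem mass_pos (hρ : Good ρ K R) (y : ι → E) (ψ : ι → ℝ) (k : ι) : 0 < mass ρ y ψ k :=
  hρ.integral_pos (continuous_th y ψ k) (th_pos y ψ k)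

theorem sum_mass (hρ : Good ρ K R) (y : ι → E) (ψ : ι → ℝ) : ∑ k, mass ρ y ψ k = 1 := by
  have := hρ.prob
  unfold mass
  rw [← integral_finsetSum _ (fun k _ => hρ.integrable (continuous_th y ψ k))]
  simp [sum_th]

theorem F_single_le [DecidableEq ι] (hρ : Good ρ K R) (y : ι → E) (ψ : ι → ℝ) (k : ι) (s : ℝ) :
    F ρ y (ψ + Pi.single k s) ≤ F ρ y ψ + mass ρ y ψ k * (exp (-s) - 1) := by
  have c1 := continuous_phi y ψ
  have c2 := continuous_th y ψ
  have h := hρ.integral_mono (continuous_phi y (ψ + Pi.single k s))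
    (g := fun x => phi y ψ x + th y ψ k x * (exp (-s) - 1)) (by fun_prop)
    (fun x _ => phi_single_le y ψ k s x)
  rw [integral_add (hρ.integrable c1) (hρ.integrable (by fun_prop)), integral_mul_const] at h
  exact h

theorem F_lip (hρ : Good ρ K R) (y : ι → E) (ψ ψ' : ι → ℝ) : F ρ y ψ ≤ F ρ y ψ' + ‖ψ - ψ'‖ := by
  have := hρ.prob
  have c1 := continuous_phi y ψ'
  have h := hρ.integral_mono (continuous_phi y ψ)
    (g := fun x => phi y ψ' x + ‖ψ - ψ'‖) (by fun_prop) (fun x _ => phi_lip_psi y ψ ψ' x)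
  rw [integral_add (hρ.integrable c1) (integrable_const _)] at h
  simpa [F] using h

theorem continuous_F (hρ : Good ρ K R) (y : ι → E) : Continuous (F ρ y) := by
  have : LipschitzWith 1 (F ρ y) := by
    refine LipschitzWith.of_le_add fun ψ ψ' => ?_
    rw [dist_eq_norm]
    exact F_lip hρ y ψ ψ'
  exact this.continuous

theorem le_F (hρ : Good ρ K R) (y : ι → E) (ψ : ι → ℝ) (k : ι) :
    -(R * ∑ j, ‖y j‖) - ψ k ≤ F ρ y ψ := by
  have := hρ.prob
  have h := hρ.integral_mono (f := fun _ => -(R * ∑ j, ‖y j‖) - ψ k) continuous_const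
    (continuous_phi y ψ) (fun x hx => by
      refine le_trans ?_ (le_phi y ψ k x)
      have h1 : |⟪x, y k⟫| ≤ ‖x‖ * ‖y k‖ := abs_real_inner_le_norm _ _
      have h2 : ‖y k‖ ≤ ∑ j, ‖y j‖ :=
        Finset.single_le_sum (f := fun j => ‖y j‖) (fun j _ => norm_nonneg _) (Finset.mem_univ k)
      have h3 : ‖x‖ * ‖y k‖ ≤ R * ∑ j, ‖y j‖ :=
        mul_le_mul (hρ.norm_le x hx) h2 (norm_nonneg _) hρ.R_pos.le
      linarith [neg_abs_le ⟪x, y k⟫])
  simpa [F] using h

theorem first_order {M g c : ℝ} (h : ∀ s : ℝ, 0 ≤ M * (exp (-s) - 1) + g * s + c * s ^ 2) :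
    M = g := by
  have hmin : IsLocalMin (fun s : ℝ => M * (exp (-s) - 1) + g * s + c * s ^ 2) 0 := by
    refine Filter.Eventually.of_forall fun s => ?_
    simpa using h s
  have hd : HasDerivAt (fun s : ℝ => M * (exp (-s) - 1) + g * s + c * s ^ 2)
      (M * (exp (-0) * (-1)) + g * 1 + c * (2 * 0 ^ 1 * 1)) 0 := by
    refine HasDerivAt.add (HasDerivAt.add ?_ ?_) ?_
    · exact (((hasDerivAt_id (0 : ℝ)).neg.exp).sub_const 1).const_mul M
    · exact (hasDerivAt_id (0 : ℝ)).const_mul g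
    · exact ((hasDerivAt_id (0 : ℝ)).pow 2).const_mul c
  have := hmin.hasDerivAt_eq_zero hd
  simp at this
  linarith

theorem sum_mul_add_single [DecidableEq ι] (m ψ : ι → ℝ) (k : ι) (s : ℝ) :
    ∑ j, m j * (ψ + Pi.single k s : ι → ℝ) j = ∑ j, m j * ψ j + m k * s := by
  simp only [Pi.add_apply, mul_add, Finset.sum_add_distrib]
  congr 1
  rw [Finset.sum_eq_single k]
  · simp
  · intro j _ hj; simp [Pi.single_eq_of_ne hj]
  · simp

theorem isBounded_of_bdd (S : Set (ι → ℝ)) (B : ι → ℝ) (h : ∀ ψ ∈ S, ∀ k, |ψ k| ≤ B k) :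
    Bornology.IsBounded S := by
  refine (Metric.isBounded_closedBall (x := (0 : ι → ℝ)) (r := ∑ k, |B k|)).subset fun ψ hψ => ?_
  rw [mem_closedBall_zero_iff, pi_norm_le_iff_of_nonneg
    (Finset.sum_nonneg fun k _ => abs_nonneg _)]
  intro k
  exact (h ψ hψ k).trans ((le_abs_self _).trans (Finset.single_le_sum (f := fun j => |B j|)
    (fun j _ => abs_nonneg _) (Finset.mem_univ k)))

theorem exists_exact (hρ : Good ρ K R) (y : ι → E) (m : ι → ℝ) (hm : ∀ k, 0 < m k)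
    (hs : ∑ k, m k = 1) : ∃ ψ : ι → ℝ, ∀ k, mass ρ y ψ k = m k := by
  classical
  let J : (ι → ℝ) → ℝ := fun ψ => F ρ y ψ + ∑ k, m k * ψ k + (∑ k, m k * ψ k) ^ 2 / 2
  have cF := continuous_F hρ y
  have cJ : Continuous J := by fun_prop
  set A := R * ∑ j, ‖y j‖ with hA
  obtain ⟨ψ, hψ⟩ := cJ.exists_forall_le_of_isBounded 0 (by
    refine isBounded_of_bdd _ (fun k => |A + J 0 + 1| + (2 * |A + J 0 + 1| + |A + J 0 + 1|) / m k) ?_
    intro ψ hψ k
    have hψ' : J ψ ≤ J 0 := hψ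
    set t := ∑ k, m k * ψ k with ht
    have hJ : J ψ = F ρ y ψ + t + t ^ 2 / 2 := rfl
    set c := |A + J 0 + 1| with hc
    have hc' : A + J 0 + 1 ≤ c := le_abs_self _
    have hc0 : 0 ≤ c := abs_nonneg _
    have hlow : ∀ j, -c ≤ ψ j := by
      intro j
      have := le_F hρ y ψ j
      nlinarith [sq_nonneg (t + 1)]
    have havg : -A - t ≤ F ρ y ψ := by
      have : ∑ j, m j * (-A - ψ j) ≤ ∑ j, m j * F ρ y ψ :=
        Finset.sum_le_sum fun j _ => mul_le_mul_of_nonneg_left (le_F hρ y ψ j) (hm j).le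
      simp only [mul_sub, Finset.sum_sub_distrib, ← Finset.sum_mul, hs, one_mul] at this
      exact this
    have ht2 : t ≤ 2 * c := by nlinarith [sq_nonneg (t - 1)]
    have hup : m k * (ψ k + c) ≤ t + c := by
      have h1 : m k * (ψ k + c) ≤ ∑ j, m j * (ψ j + c) :=
        Finset.single_le_sum (f := fun j => m j * (ψ j + c))
          (fun j _ => mul_nonneg (hm j).le (by linarith [hlow j])) (Finset.mem_univ k)
      simp only [mul_add, Finset.sum_add_distrib, ← Finset.sum_mul, hs, one_mul] at h1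
      linarith
    have h2 : ψ k + c ≤ (2 * c + c) / m k := by
      rw [le_div_iff₀ (hm k)]; linarith
    have h3 : 0 ≤ (2 * c + c) / m k := div_nonneg (by linarith) (hm k).le
    rw [abs_le]
    constructor <;> linarith [hlow k])
  set t := ∑ k, m k * ψ k with ht
  have hk : ∀ k, mass ρ y ψ k = m k * (1 + t) := by
    intro k
    refine first_order (c := m k ^ 2 / 2) fun s => ?_
    have h1 := hψ (ψ + Pi.single k s)
    have h2 := F_single_le hρ y ψ k s
    simp only [J, sum_mul_add_single] at h1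
    rw [← ht] at h1
    nlinarith
  have ht0 : t = 0 := by
    have := sum_mass hρ y ψ
    simp only [hk, ← Finset.sum_mul, hs] at this
    linarith
  exact ⟨ψ, fun k => by rw [hk, ht0]; ring⟩

theorem exists_pen (hρ : Good ρ K R) (y : ι → E) (m : ι → ℝ) (hm : ∀ k, 0 < m k)
    (hs : ∑ k, m k = 1) (ψ0 : ι → ℝ) {ε : ℝ} (hε : 0 < ε) :
    ∃ ψ : ι → ℝ, (∀ k, mass ρ y ψ k = m k + ε * (m k * (ψ k - ψ0 k))) ∧
      ∀ ψ' : ι → ℝ, F ρ y ψ + ∑ k, m k * ψ k + ε / 2 * ∑ k, m k * (ψ k - ψ0 k) ^ 2 ≤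
        F ρ y ψ' + ∑ k, m k * ψ' k + ε / 2 * ∑ k, m k * (ψ' k - ψ0 k) ^ 2 := by
  classical
  let J : (ι → ℝ) → ℝ := fun ψ =>
    F ρ y ψ + ∑ k, m k * ψ k + ε / 2 * ∑ k, m k * (ψ k - ψ0 k) ^ 2
  have cF := continuous_F hρ y
  have cJ : Continuous J := by fun_prop
  set A := R * ∑ j, ‖y j‖ with hA
  obtain ⟨ψ, hψ⟩ := cJ.exists_forall_le_of_isBounded 0 (by
    refine isBounded_of_bdd _ (fun k => |ψ0 k| + 1 + (A + J 0) / (ε / 2 * m k)) ?_
    intro ψ hψ k
    have hψ' : J ψ ≤ J 0 := hψ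
    have havg : -A - ∑ k, m k * ψ k ≤ F ρ y ψ := by
      have : ∑ j, m j * (-A - ψ j) ≤ ∑ j, m j * F ρ y ψ :=
        Finset.sum_le_sum fun j _ => mul_le_mul_of_nonneg_left (le_F hρ y ψ j) (hm j).le
      simp only [mul_sub, Finset.sum_sub_distrib, ← Finset.sum_mul, hs, one_mul] at this
      exact this
    have h1 : m k * (ψ k - ψ0 k) ^ 2 ≤ ∑ j, m j * (ψ j - ψ0 j) ^ 2 :=
      Finset.single_le_sum (f := fun j => m j * (ψ j - ψ0 j) ^ 2)
        (fun j _ => mul_nonneg (hm j).le (sq_nonneg _)) (Finset.mem_univ k)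
    have h2 : ε / 2 * (m k * (ψ k - ψ0 k) ^ 2) ≤ A + J 0 := by
      have := mul_le_mul_of_nonneg_left h1 (show 0 ≤ ε / 2 by positivity)
      have hJ : J ψ = F ρ y ψ + ∑ k, m k * ψ k + ε / 2 * ∑ k, m k * (ψ k - ψ0 k) ^ 2 := rfl
      linarith
    have h3 : (ψ k - ψ0 k) ^ 2 ≤ (A + J 0) / (ε / 2 * m k) := by
      rw [le_div_iff₀ (mul_pos (by positivity) (hm k))]; linarith
    have h4 : |ψ k - ψ0 k| ≤ 1 + (ψ k - ψ0 k) ^ 2 := by
      nlinarith [sq_nonneg (|ψ k - ψ0 k| - 1), sq_abs (ψ k - ψ0 k), abs_nonneg (ψ k - ψ0 k)]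
    have h5 : |ψ k| ≤ |ψ0 k| + |ψ k - ψ0 k| := by
      have := abs_add_le (ψ0 k) (ψ k - ψ0 k)
      simpa using this
    linarith)
  refine ⟨ψ, fun k => ?_, hψ⟩
  refine first_order (c := ε / 2 * m k) fun s => ?_
  have h1 := hψ (ψ + Pi.single k s)
  have h2 := F_single_le hρ y ψ k s
  have h3 : ∑ j, m j * ((ψ + Pi.single k s : ι → ℝ) j - ψ0 j) ^ 2 =
      ∑ j, m j * (ψ j - ψ0 j) ^ 2 + m k * (2 * (ψ k - ψ0 k) * s + s ^ 2) := by
    rw [← Finset.add_sum_erase _ _ (Finset.mem_univ k),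
      ← Finset.add_sum_erase _ (fun j => m j * (ψ j - ψ0 j) ^ 2) (Finset.mem_univ k)]
    have : ∑ j ∈ Finset.univ.erase k, m j * ((ψ + Pi.single k s : ι → ℝ) j - ψ0 j) ^ 2 =
        ∑ j ∈ Finset.univ.erase k, m j * (ψ j - ψ0 j) ^ 2 := by
      refine Finset.sum_congr rfl fun j hj => ?_
      simp [Pi.single_eq_of_ne (Finset.ne_of_mem_erase hj)]
    rw [this]
    simp only [Pi.add_apply, Pi.single_eq_same]
    ring
  simp only [J, sum_mul_add_single, h3] at h1
  nlinarith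

theorem abs_bar_le (hρ : Good ρ K R) (y : ι → E) (ψ : ι → ℝ) (v : ι → E) :
    |bar ρ y ψ v| ≤ R * ∑ k, ‖v k‖ := by
  have := hρ.prob
  unfold bar
  refine (Finset.abs_sum_le_sum_abs _ _).trans ?_
  rw [Finset.mul_sum]
  refine Finset.sum_le_sum fun k _ => abs_integral_le_integral_abs.trans ?_
  have c2 := continuous_th y ψ k
  have h := hρ.integral_mono (f := fun x => |th y ψ k x * ⟪x, v k⟫|) (by fun_prop)
    (g := fun _ => R * ‖v k‖) continuous_const (fun x hx => by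
      rw [abs_mul, abs_of_pos (th_pos y ψ k x)]
      have h1 : th y ψ k x ≤ 1 := by
        rw [← sum_th y ψ x]
        exact Finset.single_le_sum (f := fun j => th y ψ j x) (fun j _ => (th_pos y ψ j x).le)
          (Finset.mem_univ k)
      have h5 : |⟪x, v k⟫| ≤ R * ‖v k‖ := (abs_real_inner_le_norm _ _).trans
        (mul_le_mul_of_nonneg_right (hρ.norm_le x hx) (norm_nonneg _))
      calc th y ψ k x * |⟪x, v k⟫| ≤ 1 * (R * ‖v k‖) :=
            mul_le_mul h1 h5 (abs_nonneg _) zero_le_one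
        _ = _ := one_mul _)
  simpa using h

theorem bar_smul (y : ι → E) (ψ : ι → ℝ) (v : ι → E) (c : ℝ) :
    bar ρ y ψ (fun k => c • v k) = c * bar ρ y ψ v := by
  unfold bar
  rw [Finset.mul_sum]
  refine Finset.sum_congr rfl fun k _ => ?_
  rw [← integral_const_mul]
  congr 1; funext x
  rw [real_inner_smul_right]; ring

theorem bar_sub_le (hρ : Good ρ K R) (y : ι → E) (ψ ψ' : ι → ℝ) (v : ι → E) {τ : ℝ} (hτ : 0 < τ) :
    bar ρ y ψ' v - bar ρ y ψ v ≤ τ * ∑ k, (2 * mass ρ y ψ k + mass ρ y ψ' k) * ‖v k‖ ^ 2 +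
      76 * R ^ 2 / τ * ∑ k, (mass ρ y ψ k - mass ρ y ψ' k) ^ 2 / mass ρ y ψ k := by
  have := bary_bound hρ (continuous_th y ψ) (continuous_th y ψ')
    (continuous_th y fun j => (ψ j + ψ' j) / 2) (th_pos y ψ) (th_pos y ψ') (th_pos y _)
    (sum_th y ψ) (sum_th y ψ') (sum_th y _) (fun k x _ x' _ => th_logConcave y ψ ψ' k x x')
    (mass ρ y ψ) (mass ρ y ψ') (fun _ => rfl) (fun _ => rfl) v hτ
  rw [Finset.sum_sub_distrib] at this
  exact this

/-- The mixed difference estimate. -/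
theorem mixed_bound (hρ : Good ρ K R) (y0 y1 : ι → E) (m m' : ι → ℝ) (hm : ∀ k, 0 < m k)
    (hs : ∑ k, m k = 1) (hm' : ∀ k, 0 < m' k) (hs' : ∑ k, m' k = 1) (ψ0 ψ1 : ι → ℝ)
    (h0 : ∀ k, mass ρ y0 ψ0 k = m k) (h1 : ∀ k, mass ρ y1 ψ1 k = m' k) {τ : ℝ} (hτ : 0 < τ) :
    ∑ k, (m' k - m k) * (ψ1 k - ψ0 k) ≤ τ * ∑ k, (2 * m k + m' k) * ‖y1 k - y0 k‖ ^ 2 +
      76 * R ^ 2 / τ * ∑ k, (m k - m' k) ^ 2 / m k := by
  set B := τ * ∑ k, (2 * m k + m' k) * ‖y1 k - y0 k‖ ^ 2 +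
      76 * R ^ 2 / τ * ∑ k, (m k - m' k) ^ 2 / m k with hB
  set M := R * ∑ k, ‖y1 k - y0 k‖ with hM
  have main : ∀ n : ℕ, 0 < n → ∑ k, (m' k - m k) * (ψ1 k - ψ0 k) ≤ B + 2 * M / n := by
    intro n hn
    have hn' : (0 : ℝ) < n := by exact_mod_cast hn
    let y : ℕ → ι → E := fun j k => y0 k + ((j : ℝ) / n) • (y1 k - y0 k)
    have hy0 : y 0 = y0 := by funext k; simp [y]
    have hyn : y n = y1 := by funext k; simp [y, hn'.ne']
    have hstep : ∀ j, (fun k => y (j + 1) k - y j k) = fun k => (1 / n : ℝ) • (y1 k - y0 k) := by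
      intro j; funext k
      simp only [y]
      rw [add_sub_add_left_eq_sub, ← sub_smul]
      congr 1
      push_cast; ring
    have hstep' : ∀ j, (fun k => y j k - y (j + 1) k) = fun k => (-(1 / n) : ℝ) • (y1 k - y0 k) := by
      intro j; funext k
      simp only [y]
      rw [add_sub_add_left_eq_sub, ← sub_smul]
      congr 1
      push_cast; ring
    choose χ hχ using fun j => exists_exact hρ (y j) m hm hs
    choose χ' hχ' using fun j => exists_exact hρ (y j) m' hm' hs'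
    let C : ℕ → ℝ := fun j => F ρ (y j) (χ j) + ∑ k, m k * χ j k
    let C' : ℕ → ℝ := fun j => F ρ (y j) (χ' j) + ∑ k, m' k * χ' j k
    let β : ℕ → ℝ := fun j => bar ρ (y j) (χ j) fun k => y1 k - y0 k
    let β' : ℕ → ℝ := fun j => bar ρ (y j) (χ' j) fun k => y1 k - y0 k
    have hC : ∀ j, 1 / n * β j ≤ C (j + 1) - C j := by
      intro j
      have := F_tangent hρ (y j) (y (j + 1)) (χ j) (χ (j + 1))
      rw [hstep, bar_smul] at this
      simp only [hχ, mul_sub, Finset.sum_sub_distrib] at this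
      simp only [C, β]
      linarith
    have hC' : ∀ j, C' (j + 1) - C' j ≤ 1 / n * β' (j + 1) := by
      intro j
      have := F_tangent hρ (y (j + 1)) (y j) (χ' (j + 1)) (χ' j)
      rw [hstep', bar_smul] at this
      simp only [hχ', mul_sub, Finset.sum_sub_distrib] at this
      simp only [C', β']
      linarith
    have hβ : ∀ j, β' j - β j ≤ B := by
      intro j
      have := bar_sub_le hρ (y j) (χ j) (χ' j) (fun k => y1 k - y0 k) hτ
      simp only [hχ, hχ'] at this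
      exact this
    have hβb : ∀ j, |β j| ≤ M := fun j => abs_bar_le hρ _ _ _
    have htel : (C' n - C' 0) - (C n - C 0) ≤ B + 2 * M / n := by
      rw [← Finset.sum_range_sub C', ← Finset.sum_range_sub C, ← Finset.sum_sub_distrib]
      have : ∀ j ∈ Finset.range n, C' (j + 1) - C' j - (C (j + 1) - C j) ≤
          1 / n * B + 1 / n * (β (j + 1) - β j) := by
        intro j _
        have h1 := hC j
        have h2 := hC' j
        have h3 := mul_le_mul_of_nonneg_left (hβ (j + 1)) (show (0 : ℝ) ≤ 1 / n by positivity)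
        linarith
      refine (Finset.sum_le_sum this).trans ?_
      rw [Finset.sum_add_distrib, ← Finset.mul_sum (Finset.range n) (fun j => β (j + 1) - β j),
        Finset.sum_range_sub β]
      simp only [Finset.sum_const, Finset.card_range, nsmul_eq_mul]
      have e1 : (n : ℝ) * (1 / n * B) = B := by field_simp
      have e2 : 1 / n * (β n - β 0) ≤ 2 * M / n := by
        rw [one_div_mul_eq_div]
        refine div_le_div_of_nonneg_right ?_ hn'.le
        linarith [abs_le.mp (hβb n), abs_le.mp (hβb 0)]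
      linarith
    have z : ∀ (w : ι → E) (χ : ι → ℝ), bar ρ w χ (fun k => w k - w k) = 0 := by
      intro w χ; simp [bar]
    -- endpoints
    have a1 := F_tangent hρ y0 y0 ψ0 (χ 0)
    have a2 := F_tangent hρ (y 0) (y 0) (χ' 0) ψ0
    have a3 := F_tangent hρ y1 y1 ψ1 (χ' n)
    have a4 := F_tangent hρ (y n) (y n) (χ n) ψ1
    have a5 := F_tangent hρ (y 0) (y 0) (χ 0) ψ0
    have a6 := F_tangent hρ (y n) (y n) (χ' n) ψ1
    rw [z] at a1 a2 a3 a4 a5 a6
    simp only [h0, h1, hχ, hχ', mul_sub, Finset.sum_sub_distrib] at a1 a2 a3 a4 a5 a6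
    simp only [C, C', hy0, hyn] at htel a2 a4 a5 a6
    simp only [mul_sub, sub_mul, Finset.sum_sub_distrib]
    linarith
  have hlim : Filter.Tendsto (fun n : ℕ => B + 2 * M / n) Filter.atTop (nhds (B + 0)) :=
    tendsto_const_nhds.add (tendsto_const_div_atTop_nhds_zero_nat _)
  rw [add_zero] at hlim
  exact ge_of_tendsto hlim (Filter.eventually_atTop.mpr ⟨1, fun n hn => main n hn⟩)

/-- Existence of nearly optimal potentials that are close in `L²`. -/
theorem potentials_close (hρ : Good ρ K R) (y0 y1 : ι → E) (m : ι → ℝ) (hm : ∀ k, 0 < m k)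
    (hs : ∑ k, m k = 1) :
    ∃ ψ0 ψ1 χ : ι → ℝ, (∀ k, mass ρ y0 ψ0 k = m k) ∧ (∀ k, mass ρ y1 ψ1 k = m k) ∧
      F ρ y1 χ + ∑ k, m k * χ k ≤ F ρ y1 ψ1 + ∑ k, m k * ψ1 k + 1 ∧
      ∫ x, (phi y0 ψ0 x - phi y1 χ x) ^ 2 ∂ρ ≤ 7500 * R ^ 2 * ∑ k, m k * ‖y1 k - y0 k‖ ^ 2 := by
  have hR := hρ.R_pos
  obtain ⟨ψ0, h0⟩ := exists_exact hρ y0 m hm hs
  obtain ⟨ψ1, h1⟩ := exists_exact hρ y1 m hm hs
  set N0 := ∑ k, m k * (ψ1 k - ψ0 k) ^ 2 with hN0
  have N0nn : 0 ≤ N0 := Finset.sum_nonneg fun k _ => mul_nonneg (hm k).le (sq_nonneg _)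
  set S := ∑ k, 1 / m k with hS
  have Snn : 0 ≤ S := Finset.sum_nonneg fun k _ => (one_div_pos.mpr (hm k)).le
  set ε := 1 / (1 + N0 + N0 * S) with hε
  have hden : 0 < 1 + N0 + N0 * S := by positivity
  have εpos : 0 < ε := by positivity
  have ε1 : ε * (1 + N0 + N0 * S) = 1 := by rw [hε]; field_simp
  obtain ⟨χ, hχ, hmin⟩ := exists_pen hρ y1 m hm hs ψ0 εpos
  set N := ∑ k, m k * (χ k - ψ0 k) ^ 2 with hN
  have Nnn : 0 ≤ N := Finset.sum_nonneg fun k _ => mul_nonneg (hm k).le (sq_nonneg _)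
  have z : bar ρ y1 ψ1 (fun k => y1 k - y1 k) = 0 := by simp [bar]
  have a1 := F_tangent hρ y1 y1 ψ1 χ
  rw [z] at a1
  simp only [h1, mul_sub, Finset.sum_sub_distrib] at a1
  have a2 := hmin ψ1
  rw [← hN0] at a2
  have hNN : N ≤ N0 := by
    have : ε / 2 * N ≤ ε / 2 * N0 := by linarith
    exact le_of_mul_le_mul_left this (by positivity)
  have hm2 : ∀ k, mass ρ y1 χ k ≤ 2 * m k := by
    intro k
    rw [hχ]
    have h2 : m k * (χ k - ψ0 k) ^ 2 ≤ N :=
      Finset.single_le_sum (f := fun j => m j * (χ j - ψ0 j) ^ 2)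
        (fun j _ => mul_nonneg (hm j).le (sq_nonneg _)) (Finset.mem_univ k)
    have h3 : 1 / m k ≤ S := Finset.single_le_sum (f := fun j => 1 / m j)
        (fun j _ => (one_div_pos.mpr (hm j)).le) (Finset.mem_univ k)
    have h4 : (χ k - ψ0 k) ^ 2 ≤ N0 * S := by
      calc (χ k - ψ0 k) ^ 2 = m k * (χ k - ψ0 k) ^ 2 * (1 / m k) := by
            field_simp [(hm k).ne']
        _ ≤ N0 * S := mul_le_mul (h2.trans hNN) h3 (one_div_pos.mpr (hm k)).le N0nn
    have h5 : χ k - ψ0 k ≤ 1 + N0 + N0 * S := by nlinarith [sq_nonneg (χ k - ψ0 k - 1)]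
    have h6 : ε * (χ k - ψ0 k) ≤ 1 := by
      rw [← ε1]; exact mul_le_mul_of_nonneg_left h5 εpos.le
    nlinarith [hm k]
  set W := ∑ k, m k * ‖y1 k - y0 k‖ ^ 2 with hW
  have hNW : N ≤ 1216 * R ^ 2 * W := by
    have := mixed_bound hρ y0 y1 m (mass ρ y1 χ) hm hs (mass_pos hρ y1 χ) (sum_mass hρ y1 χ) ψ0 χ
      h0 (fun _ => rfl) (τ := 152 * R ^ 2 * ε) (by positivity)
    have e1 : ∑ k, (mass ρ y1 χ k - m k) * (χ k - ψ0 k) = ε * N := by
      rw [hN, Finset.mul_sum]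
      exact Finset.sum_congr rfl fun k _ => by rw [hχ]; ring
    have e2 : ∑ k, (m k - mass ρ y1 χ k) ^ 2 / m k = ε ^ 2 * N := by
      rw [hN, Finset.mul_sum]
      refine Finset.sum_congr rfl fun k _ => ?_
      rw [hχ]; field_simp [(hm k).ne']; ring
    have e3 : ∑ k, (2 * m k + mass ρ y1 χ k) * ‖y1 k - y0 k‖ ^ 2 ≤ 4 * W := by
      rw [hW, Finset.mul_sum]
      refine Finset.sum_le_sum fun k _ => ?_
      have := mul_le_mul_of_nonneg_right (hm2 k) (sq_nonneg ‖y1 k - y0 k‖)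
      linarith
    rw [e1, e2] at this
    have e4 : 76 * R ^ 2 / (152 * R ^ 2 * ε) * (ε ^ 2 * N) = ε * N / 2 := by
      field_simp; ring
    have e5 := mul_le_mul_of_nonneg_left e3 (show 0 ≤ 152 * R ^ 2 * ε by positivity)
    have e6 : ε * N ≤ ε * (1216 * R ^ 2 * W) := by linarith
    exact le_of_mul_le_mul_left e6 εpos
  refine ⟨ψ0, ψ1, χ, h0, h1, ?_, ?_⟩
  · have : ε / 2 * N0 ≤ 1 := by nlinarith [mul_nonneg N0nn Snn]
    have : 0 ≤ ε / 2 * N := by positivity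
    linarith
  · have c1 := continuous_phi y0 ψ0
    have c2 := continuous_phi y1 χ
    have c3 := continuous_th y0 ψ0
    have c4 := continuous_th y1 χ
    have h := hρ.integral_mono (f := fun x => (phi y0 ψ0 x - phi y1 χ x) ^ 2) (by fun_prop)
      (g := fun x => ∑ k, (th y0 ψ0 k x + th y1 χ k x) *
        (2 * (R ^ 2 * ‖y1 k - y0 k‖ ^ 2 + (χ k - ψ0 k) ^ 2))) (by fun_prop) (fun x hx => by
        refine (phi_sub_sq_le y0 y1 ψ0 χ x).trans (Finset.sum_le_sum fun k _ => ?_)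
        refine mul_le_mul_of_nonneg_left ?_ (add_pos (th_pos _ _ _ _) (th_pos _ _ _ _)).le
        have h5 : |⟪x, y1 k - y0 k⟫| ≤ R * ‖y1 k - y0 k‖ := (abs_real_inner_le_norm _ _).trans
          (mul_le_mul_of_nonneg_right (hρ.norm_le x hx) (norm_nonneg _))
        have h6 : ⟪x, y1 k - y0 k⟫ ^ 2 ≤ (R * ‖y1 k - y0 k‖) ^ 2 := by
          rw [← sq_abs]; exact pow_le_pow_left₀ (abs_nonneg _) h5 2
        nlinarith [sq_nonneg (⟪x, y1 k - y0 k⟫ + (χ k - ψ0 k))])
    refine h.trans ?_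
    rw [integral_finsetSum _ (fun k _ => hρ.integrable (by fun_prop))]
    have e : ∀ k, ∫ x, (th y0 ψ0 k x + th y1 χ k x) *
        (2 * (R ^ 2 * ‖y1 k - y0 k‖ ^ 2 + (χ k - ψ0 k) ^ 2)) ∂ρ ≤
        6 * R ^ 2 * (m k * ‖y1 k - y0 k‖ ^ 2) + 6 * (m k * (χ k - ψ0 k) ^ 2) := by
      intro k
      rw [integral_mul_const, integral_add (hρ.integrable (c3 k)) (hρ.integrable (c4 k))]
      have h7 : ∫ x, th y0 ψ0 k x ∂ρ + ∫ x, th y1 χ k x ∂ρ ≤ 3 * m k := by
        have := h0 k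
        have := hm2 k
        unfold mass at *
        linarith
      have := mul_le_mul_of_nonneg_right h7
        (show 0 ≤ 2 * (R ^ 2 * ‖y1 k - y0 k‖ ^ 2 + (χ k - ψ0 k) ^ 2) by positivity)
      linarith
    refine (Finset.sum_le_sum fun k _ => e k).trans ?_
    rw [Finset.sum_add_distrib, ← Finset.mul_sum, ← Finset.mul_sum, ← hW, ← hN]
    have : 0 ≤ R ^ 2 * W := mul_nonneg (sq_nonneg _)
      (Finset.sum_nonneg fun k _ => mul_nonneg (hm k).le (sq_nonneg _))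
    linarith

theorem F_add_le (hρ : Good ρ K R) (y : ι → E) (ψ m : ι → ℝ) (h : ∀ k, mass ρ y ψ k = m k) :
    F ρ y ψ + ∑ k, m k * ψ k ≤ bar ρ y ψ y + log (Fintype.card ι) := by
  have := hρ.prob
  have h1 := F_tangent hρ y (fun _ => 0) ψ (fun _ => 0)
  have h2 : F ρ (fun _ : ι => (0 : E)) (fun _ => 0) = log (Fintype.card ι) := by
    simp [F, phi_zero]
  have h3 : bar ρ y ψ (fun k => 0 - y k) = - bar ρ y ψ y := by
    have := bar_smul (ρ := ρ) y ψ y (-1)
    simp only [neg_smul, one_smul, neg_mul, one_mul] at this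
    simpa using this
  rw [h2, h3] at h1
  simp only [h, zero_sub, mul_neg, Finset.sum_neg_distrib] at h1
  linarith

end Crest.Agent.R82
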