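import Mathlib
import Crest.Agent.PL.Basic
import Crest.Agent.R82.Gap

set_option autoImplicit false
set_option linter.unusedSectionVars false

namespace Crest.Agent.R82

open Finset Real MeasureTheory Filter Topology Set
open scoped RealInnerProductSpace ENNReal
open Crest.AnalysisR.OT

variable {d : ℕ} {K : Set (EuclideanSpace ℝ (Fin d))}

theorem vol_pos (hKi : (interior K).Nonempty) : volume K ≠ 0 :=
  (Measure.measure_pos_of_nonempty_interior _ hKi).ne'

theorem integral_unif (f : EuclideanSpace ℝ (Fin d) → ℝ) :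
    ∫ x, f x ∂(uniformProbOn K) = (volume K)⁻¹.toReal * ∫ x in K, f x := by
  rw [uniformProbOn, integral_smul_measure, smul_eq_mul]

theorem good_unif (hKc : IsCompact K) (hKv : Convex ℝ K) (hKi : (interior K).Nonempty) {R : ℝ}
    (hR : 0 < R) (hKR : ∀ x ∈ K, ‖x‖ ≤ R) : Good (uniformProbOn K) K R := by
  have mK := hKc.isClosed.measurableSet
  have h0 := vol_pos hKi
  have h1 : volume K ≠ ⊤ := hKc.measure_lt_top.ne
  refine ⟨⟨?_⟩, hKc, ?_, hR, hKR, ?_⟩
  · simp [uniformProbOn, ENNReal.inv_mul_cancel h0 h1]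
  · exact Measure.ae_smul_measure (ae_restrict_mem mK) _
  · intro f g h cf cg ch pf pg ph H
    have key := PL.prekopa_leindler (K.indicator fun x => ENNReal.ofReal (f x))
      (K.indicator fun x => ENNReal.ofReal (g x)) (K.indicator fun x => ENNReal.ofReal (h x))
      (cf.measurable.ennreal_ofReal.indicator mK) (cg.measurable.ennreal_ofReal.indicator mK)
      (ch.measurable.ennreal_ofReal.indicator mK) (by
        intro x y
        by_cases hx : x ∈ K
        · by_cases hy : y ∈ K
          · have hm : (1 / 2 : ℝ) • (x + y) ∈ K := by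
              rw [smul_add]
              exact hKv hx hy (by norm_num) (by norm_num) (by norm_num)
            rw [indicator_of_mem hx, indicator_of_mem hy, indicator_of_mem hm,
              ← ENNReal.ofReal_mul (pf x), ← ENNReal.ofReal_pow (ph _)]
            exact ENNReal.ofReal_le_ofReal (H x hx y hy)
          · simp [indicator_of_notMem hy]
        · simp [indicator_of_notMem hx])
    have e : ∀ u : EuclideanSpace ℝ (Fin d) → ℝ, Continuous u → (∀ x, 0 ≤ u x) →
        ∫⁻ x, K.indicator (fun x => ENNReal.ofReal (u x)) x = ENNReal.ofReal (∫ x in K, u x) := by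
      intro u cu pu
      rw [lintegral_indicator mK, ofReal_integral_eq_lintegral_ofReal
        (cu.continuousOn.integrableOn_compact hKc) (Eventually.of_forall pu)]
    rw [e f cf pf, e g cg pg, e h ch ph, ← ENNReal.ofReal_mul (integral_nonneg pf),
      ← ENNReal.ofReal_pow (integral_nonneg ph),
      ENNReal.ofReal_le_ofReal_iff (sq_nonneg _)] at key
    rw [integral_unif, integral_unif, integral_unif]
    have := mul_le_mul_of_nonneg_left key (sq_nonneg ((volume K)⁻¹.toReal))
    nlinarith

theorem unif_translate (hKc : IsCompact K) (w : EuclideanSpace ℝ (Fin d))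
    (f : EuclideanSpace ℝ (Fin d) → ℝ) (cf : Continuous f) (pf : ∀ x, 0 ≤ f x) :
    ∫ x in {x | x + w ∈ K}, f (x + w) ∂(uniformProbOn K) ≤ ∫ x, f x ∂(uniformProbOn K) := by
  have mK := hKc.isClosed.measurableSet
  have mP : MeasurableSet {x | x + w ∈ K} :=
    (hKc.isClosed.preimage (f := fun x => x + w) (by fun_prop)).measurableSet
  rw [← integral_indicator mP, integral_unif, integral_unif]
  refine mul_le_mul_of_nonneg_left ?_ ENNReal.toReal_nonneg
  have i1 : Integrable (K.indicator f) volume :=
    (integrable_indicator_iff mK).mpr (cf.continuousOn.integrableOn_compact hKc)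
  have e : {x | x + w ∈ K}.indicator (fun x => f (x + w)) = fun x => K.indicator f (x + w) := by
    funext x
    by_cases hx : x + w ∈ K
    · rw [indicator_of_mem hx, indicator_of_mem (show x ∈ {x | x + w ∈ K} from hx)]
    · rw [indicator_of_notMem hx, indicator_of_notMem (show x ∉ {x | x + w ∈ K} from hx)]
  rw [e, ← integral_indicator mK (f := f), ← integral_add_right_eq_self (K.indicator f) w]
  exact setIntegral_le_integral (i1.comp_add_right w)
    (Eventually.of_forall fun x => indicator_nonneg (fun y _ => pf y) _)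

theorem unif_boundary (hKc : IsCompact K) (hKv : Convex ℝ K) (hKi : (interior K).Nonempty)
    {x0 : EuclideanSpace ℝ (Fin d)} {r : ℝ} (hr : 0 < r) (hball : Metric.closedBall x0 r ⊆ K)
    {η : ℝ} (hη : 0 < η) (hηr : η ≤ r) (v : EuclideanSpace ℝ (Fin d)) (hv : ‖v‖ ≤ η) :
    (uniformProbOn K).real {x | x + v ∈ K ∧ x - v ∈ K}ᶜ ≤ d * (η / r) := by
  have mK := hKc.isClosed.measurableSet
  have h0 := vol_pos hKi
  have h1 : volume K ≠ ⊤ := hKc.measure_lt_top.ne
  have : IsProbabilityMeasure (uniformProbOn K) :=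
    ⟨by simp [uniformProbOn, ENNReal.inv_mul_cancel h0 h1]⟩
  set s := η / r with hs
  have s0 : 0 < s := by positivity
  have s1 : s ≤ 1 := (div_le_one hr).mpr hηr
  set A := {x | x + v ∈ K ∧ x - v ∈ K} with hA
  have mA : MeasurableSet A :=
    ((hKc.isClosed.preimage (f := fun x => x + v) (by fun_prop)).measurableSet).inter
      (hKc.isClosed.preimage (f := fun x => x - v) (by fun_prop)).measurableSet
  have key : ∀ k ∈ K, ∀ w : EuclideanSpace ℝ (Fin d), ‖w‖ ≤ η →
      AffineMap.homothety x0 (1 - s) k + w ∈ K := by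
    intro k hk w hw
    have hb : x0 + s⁻¹ • w ∈ K := by
      refine hball ?_
      rw [Metric.mem_closedBall, dist_eq_norm, add_sub_cancel_left, norm_smul, norm_inv,
        Real.norm_eq_abs, abs_of_pos s0, inv_mul_le_iff₀ s0, hs]
      field_simp
      exact hw
    have := hKv hk hb (sub_nonneg.mpr s1) s0.le (by ring)
    convert this using 1
    rw [AffineMap.homothety_apply, smul_add, smul_smul, mul_inv_cancel₀ s0.ne', one_smul]
    simp only [vsub_eq_sub, vadd_eq_add]
    module
  have hsub : AffineMap.homothety x0 (1 - s) '' K ⊆ A ∩ K := by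
    rintro _ ⟨k, hk, rfl⟩
    refine ⟨⟨key k hk v hv, ?_⟩, ?_⟩
    · rw [sub_eq_add_neg]; exact key k hk (-v) (by rwa [norm_neg])
    · simpa using key k hk 0 (by simpa using hη.le)
  have hvol := measure_mono (μ := volume) hsub
  rw [Measure.addHaar_image_homothety, finrank_euclideanSpace_fin,
    abs_of_nonneg (pow_nonneg (sub_nonneg.mpr s1) d)] at hvol
  have hA1 : ENNReal.ofReal ((1 - s) ^ d) ≤ uniformProbOn K A := by
    simp only [uniformProbOn, Measure.smul_apply, smul_eq_mul, Measure.restrict_apply mA]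
    calc ENNReal.ofReal ((1 - s) ^ d)
        = (volume K)⁻¹ * (ENNReal.ofReal ((1 - s) ^ d) * volume K) := by
          rw [mul_left_comm, ENNReal.inv_mul_cancel h0 h1, mul_one]
      _ ≤ _ := by gcongr
  have hA2 : (1 - s) ^ d ≤ (uniformProbOn K).real A :=
    (ENNReal.ofReal_le_iff_le_toReal (measure_ne_top _ _)).mp hA1
  rw [measureReal_compl mA, probReal_univ]
  have := one_add_mul_le_pow (show -2 ≤ -s by linarith) d
  rw [← sub_eq_add_neg] at this
  linarith

theorem unif_hyperplane (i : Fin d) (c : ℝ) :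
    uniformProbOn K ((fun x : EuclideanSpace ℝ (Fin d) => x i) ⁻¹' {c}) = 0 := by
  have h : volume ((fun x : EuclideanSpace ℝ (Fin d) => x i) ⁻¹' {c}) = 0 := by
    have := (PiLp.volume_preserving_ofLp (Fin d)).measure_preimage
      (s := {f : Fin d → ℝ | f i = c}) (measurableSet_eq_fun (measurable_pi_apply i)
        measurable_const).nullMeasurableSet
    rw [volume_pi, Measure.pi_hyperplane] at this
    exact this
  have : volume.restrict K ((fun x : EuclideanSpace ℝ (Fin d) => x i) ⁻¹' {c}) = 0 :=
    le_antisymm ((Measure.restrict_apply_le _ _).trans h.le) bot_le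
  simp [uniformProbOn, this]

theorem exists_discr {X : Type*} [MetricSpace X] [MeasurableSpace X] [BorelSpace X]
    {Y : Set X} (hY : IsCompact Y) (γ : Measure X) [IsProbabilityMeasure γ]
    (hγ : ∀ᵐ p ∂γ, p ∈ Y) {δ : ℝ} (hδ : 0 < δ) :
    ∃ (t : Finset X) (γk : t → Measure X), Nonempty t ∧ ∑ k, γk k = γ ∧
      (∀ k, γk k Set.univ ≠ 0) ∧ (∀ k : t, (k : X) ∈ Y) ∧ ∀ k : t, ∀ᵐ p ∂γk k, dist p (k : X) ≤ δ := by
  classical
  obtain ⟨t, P, hP, hPt, htY, hPd⟩ := exists_net hY hγ.exists hδ
  let t' := t.filter fun c => γ (P ⁻¹' {c}) ≠ 0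
  have hsum : ∑ k : t', γ.restrict (P ⁻¹' {(k : X)}) = γ := by
    rw [Finset.sum_coe_sort t' (fun c => γ.restrict (P ⁻¹' {c}))]
    conv_rhs => rw [← sum_restrict_fiber γ t P hP hPt]
    refine Finset.sum_subset (Finset.filter_subset _ _) fun c hc hc' => ?_
    rw [Measure.restrict_eq_zero]
    by_contra h
    exact hc' (Finset.mem_filter.mpr ⟨hc, h⟩)
  refine ⟨t', fun k => γ.restrict (P ⁻¹' {(k : X)}), ?_, hsum, ?_, ?_, ?_⟩
  · by_contra h
    rw [not_nonempty_iff] at h
    rw [Finset.univ_eq_empty, Finset.sum_empty] at hsum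
    exact IsProbabilityMeasure.ne_zero γ hsum.symm
  · intro k
    rw [Measure.restrict_apply_univ]
    exact (Finset.mem_filter.mp k.2).2
  · intro k
    exact htY _ (Finset.mem_filter.mp k.2).1
  · intro k
    filter_upwards [ae_restrict_mem (hP (measurableSet_singleton (k : X))),
      ae_restrict_of_ae hγ] with p h1 h2
    have h3 : P p = k := h1
    rw [← h3]
    exact hPd p h2

end Crest.Agent.R82
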